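import Vale.Agent.P167.H72.Lit.Main
import Vale.Agent.P167.QE.Asm
import Vale.Agent.P153.R2.R1.Out1
import Vale.Agent.P153.R2.C1.Weak

/-!
# P167, literal form: every trace on every probability space
-/

set_option autoImplicit false

open MeasureTheory ProbabilityTheory Set Filter Topology
open scoped NNReal ENNReal

namespace Vale.Agent.P167.H72.Lit

open Vale.Agent.P167.QE (IsDrvK drvK_unique)
open Vale.Agent.P167.SLE (IsLim CapG bq uni_of_uniformizer exists_transfer isTrace_unique)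
open Vale.Agent.P167.Final (circ toC)

/-! ### Measures on graphs -/

/-- A measure on a product which is concentrated on the graph of a partial function is the image of
its first marginal under a measurable map. -/
theorem exists_graph {X Y : Type*} [MeasurableSpace X] [MeasurableSpace Y] [StandardBorelSpace Y]
    [Nonempty Y] (ν : Measure (X × Y)) [IsProbabilityMeasure ν] (R : X → Y → Prop)
    (hR : ∀ᵐ p ∂ν, R p.1 p.2) (hu : ∀ x y y', R x y → R x y' → y = y') :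
    ∃ T : X → Y, Measurable T ∧ ∀ᵐ x ∂ν.fst, R x (T x) := by
  classical
  have h1 : ν.fst ⊗ₘ ν.condKernel = ν := Measure.disintegrate ν _
  have h3 : ∀ᵐ x ∂ν.fst, ∀ᵐ y ∂(ν.condKernel x), R x y := by
    refine Measure.ae_ae_of_ae_compProd (p := fun p : X × Y => R p.1 p.2) ?_
    rw [h1]
    exact hR
  have h4 : ∀ᵐ x ∂ν.fst, ∃ y, R x y ∧ ν.condKernel x = Measure.dirac y := by
    filter_upwards [h3] with x hx
    obtain ⟨y, hy⟩ := hx.exists
    exact ⟨y, hy, Vale.Agent.P153.R2.C1.eq_dirac_of_ae_subsingleton _ y (by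
      filter_upwards [hx] with z hz using hu x z y hz hy)⟩
  obtain ⟨N, hN1, hN2, hN3⟩ := exists_measurable_superset_of_null h4
  have hex : ∀ x, ∃ y, x ∉ N → R x y ∧ ν.condKernel x = Measure.dirac y := by
    intro x
    by_cases hx : x ∈ N
    · exact ⟨Classical.arbitrary Y, fun h => absurd hx h⟩
    · have : ∃ y, R x y ∧ ν.condKernel x = Measure.dirac y := by
        by_contra hcon
        exact hx (hN1 hcon)
      obtain ⟨y, hy⟩ := this
      exact ⟨y, fun _ => hy⟩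
  choose T hT using hex
  refine ⟨fun x => if x ∈ N then Classical.arbitrary Y else T x, ?_, ?_⟩
  · intro B hB
    have e : (fun x => if x ∈ N then Classical.arbitrary Y else T x) ⁻¹' B =
        (N ∩ {_x | Classical.arbitrary Y ∈ B}) ∪ (Nᶜ ∩ {x | ν.condKernel x B = 1}) := by
      ext x
      by_cases hx : x ∈ N
      · simp [hx]
      · have h5 := (hT x hx).2
        simp only [mem_preimage, hx, if_false, mem_union, mem_inter_iff, false_and, mem_compl_iff,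
          not_false_eq_true, true_and, false_or, mem_ofPred_eq, h5, Measure.dirac_apply' _ hB]
        by_cases h6 : T x ∈ B
        · simp [h6]
        · simp [h6]
    rw [e]
    refine (hN2.inter (MeasurableSet.const _)).union (hN2.compl.inter ?_)
    exact (Kernel.measurable_coe _ hB) (measurableSet_singleton 1)
  · have : ∀ᵐ x ∂ν.fst, x ∉ N := measure_eq_zero_iff_ae_notMem.1 hN3
    filter_upwards [this] with x hx
    simp only [hx, if_false]
    exact (hT x hx).1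

/-! ### The driver as a path -/

section Path

/-- The path `√κ B`. -/
noncomputable def drv (κ : ℝ) {Ω : Type*} (B : ℝ≥0 → Ω → ℝ) (ω : Ω) : C(ℝ≥0, ℝ) :=
  open Classical in
  if h : Continuous fun t => B t ω then ⟨fun t => √κ * B t ω, continuous_const.mul h⟩ else 0

variable [MeasurableSpace C(ℝ≥0, ℝ)] [BorelSpace C(ℝ≥0, ℝ)] {κ : ℝ} {Ω : Type*}
  [MeasurableSpace Ω] {P : Measure Ω} {B : ℝ≥0 → Ω → ℝ}

omit [MeasurableSpace C(ℝ≥0, ℝ)] [BorelSpace C(ℝ≥0, ℝ)] in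
theorem drv_ae (hB : IsBrownianReal B P) : ∀ᵐ ω ∂P, ∀ t, drv κ B ω t = √κ * B t ω := by
  filter_upwards [hB.cont] with ω h t
  rw [drv, dif_pos h]
  rfl

theorem aemeasurable_drv (hB : IsBrownianReal B P) : AEMeasurable (drv κ B) P := by
  refine Vale.Agent.P153.M1.evN_embedding.aemeasurable_comp_iff.1
    (aemeasurable_pi_iff.2 fun n => ?_)
  refine ((hB.toIsPreBrownianReal.aemeasurable
    (TopologicalSpace.denseSeq ℝ≥0 n)).const_mul (√κ)).congr ?_
  filter_upwards [drv_ae (κ := κ) hB] with ω h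
  exact (h _).symm

theorem isDrvK_drv (hκ : 0 < κ) (hB : IsBrownianReal B P) : IsDrvK κ (P.map (drv κ B)) := by
  have hne : √κ ≠ 0 := (Real.sqrt_pos.2 hκ).ne'
  refine ⟨⟨fun I => ?_⟩, ae_of_all _ fun w => w.continuous.div_const _⟩
  have hm : Measurable fun w : C(ℝ≥0, ℝ) => I.restrict (fun t => w t / √κ) :=
    measurable_pi_lambda _ fun t =>
      ((continuous_eval_const (t : ℝ≥0)).measurable).div_const _
  refine ⟨hm.aemeasurable, ?_⟩
  rw [AEMeasurable.map_map_of_aemeasurable hm.aemeasurable (aemeasurable_drv hB),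
    ← (hB.hasLaw I).map_eq]
  refine Measure.map_congr ?_
  filter_upwards [drv_ae (κ := κ) hB] with ω h
  funext t
  show drv κ B ω t / √κ = B t ω
  rw [h, mul_div_cancel_left₀ _ hne]

end Path

/-- There is a limit law for some marked domain, with the driver of `SLE_κ`. -/
def HasLim (κ : ℝ) : Prop := ∀ (_ : MeasurableSpace C(ℝ≥0, ℝ)) (_ : BorelSpace C(ℝ≥0, ℝ))
  (_ : MeasurableSpace C(unitInterval, ℂ)) (_ : BorelSpace C(unitInterval, ℂ)),
  ∃ (Φ : (ℝ × ℝ) ≃ₜ (ℝ × ℝ)) (ψ : ℂ → ℂ) (lam : Measure C(ℝ≥0, ℝ))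
    (ν : Measure (C(ℝ≥0, ℝ) × C(unitInterval, ℂ))),
    Vale.Agent.P153.R2.Final.IsUniformizer Φ ψ ∧ IsDrvK κ lam ∧ IsLim ψ (bq Φ) lam ν

theorem exists_T [MeasurableSpace C(ℝ≥0, ℝ)] [BorelSpace C(ℝ≥0, ℝ)]
    [MeasurableSpace C(unitInterval, ℂ)] [BorelSpace C(unitInterval, ℂ)] {κ : ℝ} (h : HasLim κ)
    {Φ : (ℝ × ℝ) ≃ₜ (ℝ × ℝ)} {ψ : ℂ → ℂ} (hψ : Vale.Agent.P153.R2.Final.IsUniformizer Φ ψ) :
    ∃ (lam : Measure C(ℝ≥0, ℝ)) (T : C(ℝ≥0, ℝ) → C(unitInterval, ℂ)), IsDrvK κ lam ∧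
      Measurable T ∧ ∀ᵐ w ∂lam, CapG ψ (bq Φ) w (T w) := by
  obtain ⟨Φ0, ψ0, lam, ν, hψ0, hlam, hν⟩ := h inferInstance inferInstance inferInstance
    inferInstance
  have hprob := hν.prob
  have hU0 := uni_of_uniformizer Vale.Agent.P153.R2.R1.i_uinj hψ0
  have hU := uni_of_uniformizer Vale.Agent.P153.R2.R1.i_uinj hψ
  obtain ⟨f, hfb, hfψ⟩ := exists_transfer hU0 hU
  obtain ⟨T, hT, hT'⟩ := exists_graph ν (CapG ψ0 (bq Φ0)) hν.cap
    (fun _ _ _ h1 h2 => CapG.unique h1 h2)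
  rw [Measure.fst, hν.fst] at hT'
  refine ⟨lam, fun w => f.comp (T w), hlam,
    (ContinuousMap.continuous_postcomp f).measurable.comp hT, ?_⟩
  filter_upwards [hT'] with w hw
  obtain ⟨γ, hγ, h1, h2⟩ := hw
  refine ⟨γ, hγ, ?_, fun t ht => ?_⟩
  · rw [ContinuousMap.comp_apply, h1, hfb]
  · have h3 : (0 : ℝ) ≤ t / (1 - t) := div_nonneg t.2.1 (by linarith)
    rw [ContinuousMap.comp_apply, h2 t ht, hfψ _ (hγ.im_nonneg _ h3)]

/-- The curve `T (√κ B)` is the image of the trace. -/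
theorem curve_T [MeasurableSpace C(ℝ≥0, ℝ)] [BorelSpace C(ℝ≥0, ℝ)] {κ : ℝ} (hκ : 0 < κ)
    {Φ : (ℝ × ℝ) ≃ₜ (ℝ × ℝ)} {ψ : ℂ → ℂ} (hψ : Vale.Agent.P153.R2.Final.IsUniformizer Φ ψ)
    {lam : Measure C(ℝ≥0, ℝ)} {T : C(ℝ≥0, ℝ) → C(unitInterval, ℂ)} (hlam : IsDrvK κ lam)
    (hT' : ∀ᵐ w ∂lam, CapG ψ (bq Φ) w (T w)) {Ω : Type*} [MeasurableSpace Ω] {P : Measure Ω}
    {γ : Ω → ℝ → ℂ} {B : ℝ≥0 → Ω → ℝ} (hB : IsBrownianReal B P)
    (hT : ∀ᵐ ω ∂P, Final.IsTrace (fun t => √κ * B t.toNNReal ω) (γ ω)) :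
    ∀ᵐ ω ∂P, T (drv κ B ω) 0 = toC (Φ (circ 0)) ∧ T (drv κ B ω) 1 = toC (Φ (circ Real.pi)) ∧
        ∀ t : unitInterval, (t : ℝ) < 1 → T (drv κ B ω) t = ψ (γ ω (t / (1 - t))) := by
  have h1 : P.map (drv κ B) = lam := drvK_unique hκ (isDrvK_drv hκ hB) hlam
  rw [← h1] at hT'
  have h2 := ae_of_ae_map (aemeasurable_drv hB) hT'
  filter_upwards [h2, hT, drv_ae (κ := κ) hB, hB.eval_zero_ae_eq_zero] with ω a1 a2 a3 a4
  obtain ⟨γ', b1, b2, b3⟩ := a1
  have e : (fun t : ℝ => (drv κ B ω) t.toNNReal) = fun t : ℝ => √κ * B t.toNNReal ω := by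
    funext t
    rw [a3]
  have a2' : Vale.Agent.P164.IsTrace (fun t : ℝ => (drv κ B ω) t.toNNReal) (γ ω) := by
    rw [e]
    exact ⟨a2.cont, a2.start, a2.im_nonneg, a2.domain_eq⟩
  have hγγ : ∀ s : ℝ, 0 ≤ s → γ' s = γ ω s := fun s hs =>
    isTrace_unique ((drv κ B ω).continuous.comp continuous_real_toNNReal) b1 a2' hs
  have b4 : ∀ t : unitInterval, (t : ℝ) < 1 → T (drv κ B ω) t = ψ (γ ω (t / (1 - t))) := by
    intro t ht
    rw [b3 t ht, hγγ _ (div_nonneg t.2.1 (by linarith))]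
  refine ⟨?_, b2, b4⟩
  have h5 := b4 0 (by simp)
  have h4 : γ ω 0 = 0 := by
    rw [a2.start]
    simp [a4]
  rw [h5]
  simp only [Set.Icc.coe_zero, zero_div, h4]
  exact hψ.2.2.2.2.1

/-- **The statement for every trace.** -/
theorem body_of {q : ℝ} (hκ : 0 < Final.kappa q) (hlim : HasLim (Final.kappa q))
    (hQ : Final.Question q) {Ω : Type*} [MeasurableSpace Ω] {P : Measure Ω}
    [IsProbabilityMeasure P] {γ : Ω → ℝ → ℂ} (hγ : Final.IsSLE (Final.kappa q) P γ) :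
    FBody q P γ := by
  let _ : MeasurableSpace C(ℝ≥0, ℝ) := borel _
  have _ : BorelSpace C(ℝ≥0, ℝ) := ⟨rfl⟩
  let _ : MeasurableSpace C(unitInterval, ℂ) := borel _
  have _ : BorelSpace C(unitInterval, ℂ) := ⟨rfl⟩
  obtain ⟨Ω0, mΩ0, P0, hP0, γ0, hγ0, hQ⟩ := hQ
  intro Φ
  refine ⟨(hQ Φ).1, fun ψ hψ => ?_⟩
  obtain ⟨G0, hG0, hm0, hconv⟩ := (hQ Φ).2 ψ hψ
  have hψ' : Vale.Agent.P153.R2.Final.IsUniformizer Φ ψ := hψ
  obtain ⟨lam, T, hlam, hT, hT'⟩ := exists_T hlim hψ'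
  obtain ⟨B, hB, hBT⟩ := hγ
  obtain ⟨B0, hB0, hBT0⟩ := hγ0
  have k1 := curve_T hκ hψ' hlam hT' hB hBT
  have k0 := curve_T hκ hψ' hlam hT' hB0 hBT0
  have hG0' : ∀ᵐ ω ∂P0, G0 ω = T (drv (Final.kappa q) B0 ω) := by
    filter_upwards [hG0, k0] with ω h1 h2
    ext t
    rcases lt_or_eq_of_le t.2.2 with ht | ht
    · rw [h1.2.2 t ht, h2.2.2 t ht]
    · have ht' : t = 1 := Subtype.ext ht
      rw [ht', h1.2.1, h2.2.1]
  have hint : ∀ F : C(unitInterval, ℂ) → ℝ, Continuous F →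
      ∫ ω, F (G0 ω) ∂P0 = ∫ ω, F (T (drv (Final.kappa q) B ω)) ∂P := by
    intro F hF
    have h1 : P.map (drv (Final.kappa q) B) = lam := drvK_unique hκ (isDrvK_drv hκ hB) hlam
    have h2 : P0.map (drv (Final.kappa q) B0) = lam := drvK_unique hκ (isDrvK_drv hκ hB0) hlam
    have h3 : Measurable fun w => F (T w) := hF.measurable.comp hT
    have e1 := integral_map (aemeasurable_drv (κ := Final.kappa q) hB)
      (h3.aestronglyMeasurable (μ := P.map (drv (Final.kappa q) B)))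
    have e2 := integral_map (aemeasurable_drv (κ := Final.kappa q) hB0)
      (h3.aestronglyMeasurable (μ := P0.map (drv (Final.kappa q) B0)))
    rw [← e1, h1, ← h2, e2]
    exact integral_congr_ae (hG0'.mono fun ω hω => by simp only [hω])
  refine ⟨fun ω => T (drv (Final.kappa q) B ω), k1, fun F hF => ?_, fun δ N k p S hA => ?_⟩
  · exact ((Final.continuous_of hF).measurable.comp hT).comp_aemeasurable (aemeasurable_drv hB)
  · obtain ⟨h1, h2⟩ := hconv δ N k p S hA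
    refine ⟨h1, fun η hη F hF => ?_⟩
    rw [← hint F (Final.continuous_of hF)]
    exact h2 η hη F hF

end Vale.Agent.P167.H72.Lit
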