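import Vale.Agent.P167.H72.Lit.Wire

/-!
# P167, literal form: the approximation of a marked Jordan domain
-/

set_option autoImplicit false

namespace Vale.Agent.P167.H72.Lit

open Filter Topology Set
open Vale.Agent.P167.Final (Encloses circ toC dom Approx)

/-- `ℂ = ℝ × ℝ`. -/
noncomputable def eC : ℂ ≃ₜ ℝ × ℝ := Complex.equivRealProdCLM.toHomeomorph

theorem eC_apply (z : ℂ) : eC z = (z.re, z.im) := rfl

theorem toC_eC (z : ℂ) : toC (eC z) = z := rfl

theorem eC_symm_apply (w : ℝ × ℝ) : eC.symm w = toC w := by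
  rw [Homeomorph.symm_apply_eq]
  rfl

/-- The homeomorphism of `ℝ × ℝ`. -/
noncomputable def conj (Φ : ℂ ≃ₜ ℂ) : (ℝ × ℝ) ≃ₜ (ℝ × ℝ) := (eC.symm.trans Φ).trans eC

theorem toC_conj (Φ : ℂ ≃ₜ ℂ) (w : ℝ × ℝ) : toC (conj Φ w) = Φ (toC w) := by
  show toC (eC (Φ (eC.symm w))) = _
  rw [toC_eC, eC_symm_apply]

theorem toC_circ (t : ℝ) : toC (circ t) = Complex.exp (t * Complex.I) := by
  rw [Complex.exp_mul_I]
  apply Complex.ext
  · simp [toC, circ, ← Complex.ofReal_cos, ← Complex.ofReal_sin]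
  · simp [toC, circ, ← Complex.ofReal_cos, ← Complex.ofReal_sin]

theorem toC_conj_circ (Φ : ℂ ≃ₜ ℂ) (t : ℝ) :
    toC (conj Φ (circ t)) = bdry Φ (t / (2 * Real.pi)) := by
  rw [toC_conj, toC_circ, bdry]
  congr 2
  have : (Real.pi : ℂ) ≠ 0 := by exact_mod_cast Real.pi_ne_zero
  push_cast
  field_simp

theorem toC_zero (Φ : ℂ ≃ₜ ℂ) : toC (conj Φ (circ 0)) = Φ 1 := by
  rw [toC_conj, toC_circ]
  simp

theorem toC_pi (Φ : ℂ ≃ₜ ℂ) : toC (conj Φ (circ Real.pi)) = Φ (-1) := by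
  rw [toC_conj, toC_circ, Complex.exp_pi_mul_I]

theorem dom_conj (Φ : ℂ ≃ₜ ℂ) : toC '' dom (conj Φ) = Φ '' Metric.ball 0 1 := by
  unfold dom
  rw [image_image]
  simp only [toC_conj]
  have h : toC '' {z : ℝ × ℝ | z.1 ^ 2 + z.2 ^ 2 < 1} = Metric.ball (0 : ℂ) 1 := by
    ext z
    rw [mem_ball_zero_iff]
    have hz : ‖z‖ < 1 ↔ z.re ^ 2 + z.im ^ 2 < 1 := by
      rw [← sq_lt_one_iff₀ (norm_nonneg z), Complex.sq_norm, Complex.normSq_apply]
      constructor <;> intro h <;> nlinarith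
    rw [hz]
    constructor
    · rintro ⟨w, hw, rfl⟩
      exact hw
    · intro h
      exact ⟨(z.re, z.im), h, rfl⟩
  rw [← h, image_image]

theorem isUniformizer_iff (Φ : ℂ ≃ₜ ℂ) (ψ : ℂ → ℂ) :
    IsUniformizer Φ ψ ↔ Final.IsUniformizer (conj Φ) ψ := by
  unfold IsUniformizer Final.IsUniformizer
  rw [dom_conj, toC_zero, toC_pi]

/-! ### The approximation -/

variable (D : Discrete)

/-- Times at which the parametrization is near the vertices. -/
theorem exists_times (h0 : 0 < D.k) (hN : D.k < D.N) :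
    ∃ τ : ℕ → ℝ, Monotone τ ∧ τ 0 = 0 ∧ τ D.k = 1 / 2 ∧ τ D.N = 1 ∧ (∀ i, τ i ∈ Icc (0 : ℝ) 1) ∧
      ∀ i ≤ D.N, (i : ℝ) - 1 ≤ D.u (τ i) ∧ D.u (τ i) ≤ i := by
  have hh : (1 / 2 : ℝ) ∈ Icc (0 : ℝ) 1 := by constructor <;> norm_num
  have h11 : (1 : ℝ) ∈ Icc (0 : ℝ) 1 := by constructor <;> norm_num
  have h00 : (0 : ℝ) ∈ Icc (0 : ℝ) 1 := by constructor <;> norm_num
  have hu0 := D.u_zero
  have hu1 := D.u_one
  have huh := D.u_half
  have hex : ∀ i : ℕ, ∃ t ∈ Icc (0 : ℝ) 1, 0 < i → i < D.N → D.u t = i := by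
    intro i
    by_cases h : 0 < i ∧ i < D.N
    · have h1 : (0 : ℝ) < i := by exact_mod_cast h.1
      have h2 : (i : ℝ) + 1 ≤ D.N := by exact_mod_cast h.2
      obtain ⟨t, ht, hti⟩ := intermediate_value_Icc (zero_le_one (α := ℝ)) D.u_cont
        (show (i : ℝ) ∈ Icc (D.u 0) (D.u 1) from ⟨by linarith, by linarith⟩)
      exact ⟨t, ht, fun _ _ => hti⟩
    · exact ⟨0, h00, fun a b => absurd ⟨a, b⟩ h⟩
  choose σ hσ hσi using hex
  classical
  set τ : ℕ → ℝ := fun i => if i = 0 then 0 else if i = D.k then 1 / 2 else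
    if i < D.N then σ i else 1 with hτ
  have t0 : τ 0 = 0 := by simp [hτ]
  have tk : τ D.k = 1 / 2 := by simp [hτ, h0.ne']
  have tm : ∀ i, 0 < i → i ≠ D.k → i < D.N → τ i = σ i := by
    intro i h1 h2 h3
    simp [hτ, h1.ne', h2, h3]
  have tN : ∀ i, D.N ≤ i → τ i = 1 := by
    intro i hi
    have h1 : i ≠ 0 := by omega
    have h2 : i ≠ D.k := by omega
    simp [hτ, h1, h2, not_lt.2 hi]
  have tI : ∀ i, τ i ∈ Icc (0 : ℝ) 1 := by
    intro i
    rcases Nat.eq_zero_or_pos i with rfl | h1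
    · rw [t0]; exact h00
    rcases eq_or_ne i D.k with rfl | h2
    · rw [tk]; exact hh
    rcases lt_or_ge i D.N with h3 | h3
    · rw [tm i h1 h2 h3]; exact hσ i
    · rw [tN i h3]; exact h11
  have tu : ∀ i ≤ D.N, (i : ℝ) - 1 ≤ D.u (τ i) ∧ D.u (τ i) ≤ i := by
    intro i hi
    rcases Nat.eq_zero_or_pos i with rfl | h1
    · rw [t0]
      push_cast
      exact ⟨by linarith, by linarith⟩
    rcases eq_or_ne i D.k with rfl | h2
    · rw [tk]; exact ⟨huh.1.le, huh.2⟩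
    rcases lt_or_ge i D.N with h3 | h3
    · rw [tm i h1 h2 h3, hσi i h1 h3]
      exact ⟨by linarith, le_rfl⟩
    · obtain rfl : i = D.N := le_antisymm hi h3
      rw [tN _ le_rfl]
      exact ⟨by linarith, by linarith⟩
  have tmono : Monotone τ := by
    refine monotone_nat_of_le_succ fun i => ?_
    rcases lt_or_ge i D.N with h3 | h3
    swap
    · rw [tN i h3, tN (i + 1) (by omega)]
    by_contra hcon
    push Not at hcon
    have h4 := D.u_mono (tI _) (tI _) hcon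
    have h5 := (tu i h3.le).2
    have h6 := (tu (i + 1) (by omega)).1
    push_cast at h6
    linarith
  exact ⟨τ, tmono, t0, tk, tN _ le_rfl, tI, tu⟩

/-- **The vertices are near the boundary curve.** -/
theorem approx_one (h0 : 0 < D.k) (hN : D.k < D.N) {Φ : ℂ ≃ₜ ℂ} {ε : ℝ} (hδ : D.δ ≤ ε / 2)
    (h : ∀ t ∈ Icc (0 : ℝ) 1, dist (D.β t) (bdry Φ t) < ε / 2) :
    ∃ s : ℕ → ℝ, Monotone s ∧ s 0 = 0 ∧ s D.k = Real.pi ∧
    s D.N = 2 * Real.pi ∧ ∀ i < D.N, ∀ t ∈ Icc (s i) (s (i + 1)),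
      dist ((D.δ : ℂ) * Final.pt (D.p i)) (toC (conj Φ (circ t))) < ε := by
  obtain ⟨τ, h1, h2, h3, h4, h5, h6⟩ := exists_times D h0 hN
  have hpi := Real.pi_pos
  refine ⟨fun i => 2 * Real.pi * τ i, fun i j hij => by
    have := h1 hij
    dsimp only
    nlinarith, by simp [h2], by simp only [h3]; ring, by simp only [h4]; ring, ?_⟩
  intro i hi t ht
  have ht1 : τ i ≤ t / (2 * Real.pi) := by
    rw [le_div_iff₀ (by positivity)]
    linarith [ht.1]
  have ht2 : t / (2 * Real.pi) ≤ τ (i + 1) := by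
    rw [div_le_iff₀ (by positivity)]
    linarith [ht.2]
  rw [toC_conj_circ]
  set x := t / (2 * Real.pi) with hx
  have hxI : x ∈ Icc (0 : ℝ) 1 := ⟨(h5 i).1.trans ht1, ht2.trans (h5 (i + 1)).2⟩
  have a1 : (i : ℝ) - 1 ≤ D.u x := (h6 i hi.le).1.trans (D.u_mono.monotoneOn (h5 _) hxI ht1)
  have a2 : D.u x ≤ i + 1 := by
    have := (D.u_mono.monotoneOn hxI (h5 _) ht2).trans (h6 (i + 1) (by omega)).2
    push_cast at this
    exact this
  have a3 := dist_line (p := D.p) (i := (i : ℤ)) (x := D.u x) D.δ_pos D.nn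
    (by rw [Int.cast_natCast]; exact a1) (by rw [Int.cast_natCast]; exact a2)
  rw [← D.β_eq x hxI] at a3
  have a4 := h x hxI
  have a5 : ((i : ℤ) : ZMod D.N) = (i : ZMod D.N) := by simp
  rw [a5] at a3
  calc dist ((D.δ : ℂ) * Final.pt (D.p i)) (bdry Φ x)
      ≤ dist ((D.δ : ℂ) * pt (D.p i)) (D.β x) + dist (D.β x) (bdry Φ x) := dist_triangle _ _ _
    _ < ε := by linarith

/-- The free arc and the wired arc have vertices if the domain is near `(D; a, b)`. -/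
theorem k_pos {Φ : ℂ ≃ₜ ℂ} {ε : ℝ} (h : ∀ t ∈ Icc (0 : ℝ) 1, dist (D.β t) (bdry Φ t) < ε)
    (hε : D.δ + 2 * ε ≤ dist (Φ 1) (Φ (-1))) : 0 < D.k ∧ D.k < D.N := by
  have hh : (1 / 2 : ℝ) ∈ Icc (0 : ℝ) 1 := by constructor <;> norm_num
  have h11 : (1 : ℝ) ∈ Icc (0 : ℝ) 1 := by constructor <;> norm_num
  have h00 : (0 : ℝ) ∈ Icc (0 : ℝ) 1 := by constructor <;> norm_num
  have hu0 := D.u_zero
  have hu1 := D.u_one
  have huh := D.u_half
  have b0 : bdry Φ 0 = Φ 1 := by simp [bdry]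
  have bh : bdry Φ (1 / 2) = Φ (-1) := by
    rw [bdry]
    congr 1
    rw [← Complex.exp_pi_mul_I]
    congr 1
    push_cast
    ring
  have b1 : bdry Φ 1 = Φ 1 := by
    rw [bdry]
    congr 1
    rw [← Complex.exp_two_pi_mul_I]
    congr 1
    push_cast
    ring
  have hseg : ∀ (i : ℤ) (x y : ℝ), (i : ℝ) ≤ x → x ≤ y → y ≤ i + 1 →
      dist (line D.δ D.p x) (line D.δ D.p y) ≤ D.δ := by
    intro i x y h1 h2 h3
    rw [line_of_mem (i := i) h1 (by linarith), line_of_mem (i := i) (by linarith) h3,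
      Complex.dist_eq]
    have e : (D.δ : ℂ) * ((1 - (x - i : ℝ)) * pt (D.p i) + (x - i : ℝ) * pt (D.p (i + 1))) -
        D.δ * ((1 - (y - i : ℝ)) * pt (D.p i) + (y - i : ℝ) * pt (D.p (i + 1))) =
        (D.δ : ℂ) * ((y - x : ℝ) * (pt (D.p i) - pt (D.p (i + 1)))) := by
      push_cast
      ring
    rw [e, norm_mul, norm_mul, ← Complex.dist_eq, D.nn, Complex.norm_real, Complex.norm_real,
      Real.norm_of_nonneg D.δ_pos.le, Real.norm_of_nonneg (by linarith)]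
    have := D.δ_pos
    nlinarith
  have hlt : ∀ s t : ℝ, s ∈ Icc (0 : ℝ) 1 → t ∈ Icc (0 : ℝ) 1 →
      dist (D.β s) (D.β t) ≤ D.δ → dist (bdry Φ s) (bdry Φ t) < D.δ + 2 * ε := by
    intro s t hs ht h1
    have h2 := h s hs
    have h3 := h t ht
    have h4 := dist_triangle4 (bdry Φ s) (D.β s) (D.β t) (bdry Φ t)
    rw [dist_comm (bdry Φ s) (D.β s)] at h4
    linarith
  constructor
  · rcases Nat.eq_zero_or_pos D.k with hk | hk
    · exfalso
      rw [hk] at huh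
      push_cast at huh
      have h1 := hlt 0 (1 / 2) h00 hh (by
        rw [D.β_eq _ h00, D.β_eq _ hh]
        exact hseg (-1) _ _ (by push_cast; exact hu0.1)
          (D.u_mono.monotoneOn h00 hh (by norm_num)) (by push_cast; linarith))
      rw [b0, bh] at h1
      linarith
    · exact hk
  · by_contra hcon
    push Not at hcon
    have h2 : (D.N : ℝ) ≤ D.k := by exact_mod_cast hcon
    have h1 := hlt (1 / 2) 1 hh h11 (by
      rw [D.β_eq _ h11, D.β_eq _ hh]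
      exact hseg (D.N - 1 : ℤ) _ _ (by push_cast; linarith)
        (D.u_mono.monotoneOn hh h11 (by norm_num)) (by push_cast; linarith))
    rw [b1, bh, dist_comm] at h1
    linarith

end Vale.Agent.P167.H72.Lit
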