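import Mathlib

/-!
# P167, Q1 for one value of `q`, written out over Mathlib

Everything here is a transcription of the setting of the problem: the interior of a lattice polygon
(a bounded component of the complement), the graph of all lattice vertices and lattice edges in its
closure, explicit parametrizations of the boundary with arbitrary marked points, the
random-cluster measure with the wired arc identified to one point, the medial interface, the metric
`d` and chordal SLE.
-/

universe u

namespace Vale.Agent.P167.H72.Lit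

open MeasureTheory ProbabilityTheory Filter Topology Set

/-! ### Polygons of the square lattice -/

/-- The lattice point as a point of the plane. -/
def pt (v : ℤ × ℤ) : ℂ := ⟨v.1, v.2⟩

/-- The polygon with the vertices `p 0, p 1, …, p (N - 1)` on the lattice of mesh `δ`, as a subset of
the plane. -/
def curve (δ : ℝ) {N : ℕ} (p : ZMod N → ℤ × ℤ) : Set ℂ :=
  ⋃ i, segment ℝ (δ * pt (p i)) (δ * pt (p (i + 1)))

/-- Its interior: the points whose component in the complement of the polygon is bounded. -/
def inside (δ : ℝ) {N : ℕ} (p : ZMod N → ℤ × ℤ) : Set ℂ :=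
  {z | z ∉ curve δ p ∧ Bornology.IsBounded (connectedComponentIn (curve δ p)ᶜ z)}

/-- The point of the polygon at the time `x`: it is at the vertex `p i` at the times `i`, `i + N`,
`i - N`, … and runs through the sides with unit speed (in lattice units). -/
noncomputable def line (δ : ℝ) {N : ℕ} (p : ZMod N → ℤ × ℤ) (x : ℝ) : ℂ :=
  δ * ((1 - Int.fract x) * pt (p ⌊x⌋) + Int.fract x * pt (p (⌊x⌋ + 1)))

/-- A discrete marked domain `(D_n; a_n, b_n)`: the interior of a simple closed nearest-neighbour
polygon on `δℤ²`, with a counterclockwise parametrization `β t = line δ p (u t)`, `0 ≤ t ≤ 1`, of the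
polygon (`Discrete.β` below; `u` is the change of time, so that `β` is injective on `[0,1)`), the
marked points `a_n = β 0`, `b_n = β (1/2)`, and the graph of all lattice vertices and all lattice
edges in the closure of the interior. -/
structure Discrete where
  /-- the mesh -/
  δ : ℝ
  /-- the number of vertices of the polygon -/
  N : ℕ
  /-- the polygon -/
  p : ZMod N → ℤ × ℤ
  /-- the change of time of the parametrization -/
  u : ℝ → ℝ
  /-- the number of the first vertex of the arc from `b_n` to `a_n` -/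
  k : ℕ
  /-- the vertices of the graph -/
  V : Finset (ℤ × ℤ)
  /-- the edges of the graph -/
  E : Finset (Sym2 (ℤ × ℤ))
  δ_pos : 0 < δ
  /-- the polygon is simple, closed and nearest-neighbour -/
  two_lt : 2 < N
  inj : Function.Injective p
  nn : ∀ i, dist (pt (p i)) (pt (p (i + 1))) = 1
  /-- it is counterclockwise: the centre of the lattice square to the left of every directed side
  `p i → p (i + 1)` is in the interior -/
  ccw : ∀ i, δ * (pt (p i) + (1 + Complex.I) / 2 * (pt (p (i + 1)) - pt (p i))) ∈ inside δ p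
  /-- the parametrization runs once through the polygon, in this direction -/
  u_cont : ContinuousOn u (Icc 0 1)
  u_mono : StrictMonoOn u (Icc 0 1)
  u_one : u 1 = u 0 + N
  /-- numbering of the vertices: `a_n` is on the side from `p (-1)` to `p 0`, at `p (-1)` or after,
  before `p 0`; `b_n` is on the side from `p (k - 1)` to `p k`, after `p (k - 1)`, at `p k` or
  before -/
  u_zero : -1 ≤ u 0 ∧ u 0 < 0
  u_half : (k : ℝ) - 1 < u (1 / 2) ∧ u (1 / 2) ≤ k
  /-- the graph consists of all lattice vertices and all lattice edges in the closed domain -/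
  mem_V : ∀ v, v ∈ V ↔ δ * pt v ∈ closure (inside δ p)
  mem_E : ∀ v w, s(v, w) ∈ E ↔
    dist (pt v) (pt w) = 1 ∧ segment ℝ (δ * pt v) (δ * pt w) ⊆ closure (inside δ p)

/-- The parametrization of the polygon by `[0,1]`. -/
noncomputable def Discrete.β (D : Discrete) (t : ℝ) : ℂ := line D.δ D.p (D.u t)

/-- The wired vertices: the vertices on the closed arc from `b_n = β (1/2)` to `a_n = β 1`. -/
def wired (D : Discrete) : Set (ℤ × ℤ) := {v | ∃ t ∈ Icc (1 / 2 : ℝ) 1, D.β t = D.δ * pt v}

/-! ### The random-cluster measure -/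

/-- The number of components of `(V, A)`, isolated vertices included, after identifying the wired
vertices. -/
noncomputable def clusters (D : Discrete) (A : Finset (Sym2 (ℤ × ℤ))) : ℕ :=
  Nat.card (Quot fun v w : D.V => s(v.1, w.1) ∈ A ∨ (v.1 ∈ wired D ∧ w.1 ∈ wired D))

/-- The self-dual point. -/
noncomputable def selfDual (q : ℝ) : ℝ := √q / (1 + √q)

/-- The weight of the set `A` of open edges in the random-cluster measure. -/
noncomputable def weight (q : ℝ) (D : Discrete) (A : Finset (Sym2 (ℤ × ℤ))) : ℝ :=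
  selfDual q ^ A.card * (1 - selfDual q) ^ (D.E.card - A.card) * q ^ clusters D A

/-- Expectation of `F` for the random-cluster measure on the subsets of the set of edges. -/
noncomputable def mean (q : ℝ) (D : Discrete) (F : Finset (Sym2 (ℤ × ℤ)) → ℝ) : ℝ :=
  (∑ A ∈ D.E.powerset, weight q D A * F A) / ∑ A ∈ D.E.powerset, weight q D A

/-! ### The interface -/

/-- The four directions: east, north, west, south. -/
def dir : Fin 4 → ℤ × ℤ := ![(1, 0), (0, 1), (-1, 0), (0, -1)]

/-- The directed edges of the medial lattice: `(v, r)` is the medial edge which has the vertex `v` on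
its left and passes from the edge `v, v + dir r` to the edge `v, v + dir (r + 1)`; the face
between these two edges is on its right. -/
abbrev Medial := (ℤ × ℤ) × Fin 4

/-- The edge of the lattice at whose midpoint the medial edge ends. -/
def ahead (c : Medial) : Sym2 (ℤ × ℤ) := s(c.1, c.1 + dir (c.2 + 1))

/-- The midpoint of this edge, in the lattice of mesh `δ`. -/
noncomputable def mid (δ : ℝ) (c : Medial) : ℂ :=
  δ * (pt c.1 + pt (c.1 + dir (c.2 + 1))) / 2

open Classical in
/-- The next medial edge of the path: at an open edge (`ω` is the set of the open edges) the path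
keeps the face on its right and passes to the other end of the edge on its left; at a closed edge
it keeps the vertex on its left and passes to the other face. -/
noncomputable def next (ω : Set (Sym2 (ℤ × ℤ))) (c : Medial) : Medial :=
  if ahead c ∈ ω then (c.1 + dir (c.2 + 1), c.2 - 1) else (c.1, c.2 + 1)

/-- The polygonal curve through `x 0, x 1, …, x m`, parametrized by `[0,1]`. -/
noncomputable def poly (x : ℕ → ℂ) (m : ℕ) (t : ℝ) : ℂ :=
  x ⌊t * m⌋₊ + (t * m - ⌊t * m⌋₊ : ℝ) * (x (⌊t * m⌋₊ + 1) - x ⌊t * m⌋₊)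

/-- The edges which the interface does not cross: the open edges and the sides of the wired arc. -/
def openEdges (D : Discrete) (A : Finset (Sym2 (ℤ × ℤ))) : Set (Sym2 (ℤ × ℤ)) :=
  {e | e ∈ A ∨ ∃ i, D.p i ∈ wired D ∧ D.p (i + 1) ∈ wired D ∧ e = s(D.p i, D.p (i + 1))}

/-- `γ` is the interface for the set `A` of open edges: the path in the medial lattice from the
midpoint of the side `p (-1), p 0` at `a_n`, where it comes from outside with the last wired vertex
`p (-1)` on its left, to the midpoint of the side `p (k - 1), p k` at `b_n`, where it leaves the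
domain for the first time with the wired vertex `p k` on its left. On its left there are vertices
joined to the wired arc by open edges, on its right faces joined to the free arc by the dual edges
of closed edges. -/
def IsInterface (D : Discrete) (A : Finset (Sym2 (ℤ × ℤ))) (γ : C(unitInterval, ℂ)) : Prop :=
  ∃ (m : ℕ) (c : ℕ → Medial), 0 < m ∧
    (c 0).1 = D.p (-1) ∧ D.p (-1) + dir ((c 0).2 + 1) = D.p 0 ∧
    (∀ j, c (j + 1) = next (openEdges D A) (c j)) ∧
    (∀ j, 1 ≤ j → ((c j).1 = D.p D.k ∧ D.p D.k + dir (c j).2 = D.p (D.k - 1)) → m + 1 ≤ j) ∧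
    (c (m + 1)).1 = D.p D.k ∧ D.p D.k + dir (c (m + 1)).2 = D.p (D.k - 1) ∧
    ∀ t : unitInterval, γ t = poly (fun j => mid D.δ (c j)) m t

/-! ### Jordan domains -/

/-- The counterclockwise parametrization `β` of the boundary of the Jordan domain `D = Φ (𝔻)`, where
`Φ` is a homeomorphism of the plane (by the theorem of Schoenflies every parametrized Jordan curve is
of this form). The marked points are `a = β 0 = Φ 1` and `b = β (1/2) = Φ (-1)`. -/
noncomputable def bdry (Φ : ℂ ≃ₜ ℂ) (t : ℝ) : ℂ := Φ (Complex.exp (2 * Real.pi * t * Complex.I))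

/-- `(D_n; a_n, b_n)` converge to `(D; a, b)`: the meshes tend to `0`, and so does
`sup_t |β_n t - β t|`. -/
def Approximates (D : ℕ → Discrete) (Φ : ℂ ≃ₜ ℂ) : Prop :=
  Tendsto (fun n => (D n).δ) atTop (𝓝 0) ∧
    TendstoUniformlyOn (fun n => (D n).β) (bdry Φ) atTop (Icc 0 1)

/-- `ψ` is a conformal map from the upper half-plane onto `D = Φ (𝔻)`, extended continuously to the
boundary, which takes `0` to `a` and `∞` to `b`. -/
def IsUniformizer (Φ : ℂ ≃ₜ ℂ) (ψ : ℂ → ℂ) : Prop :=
  DifferentiableOn ℂ ψ {z | 0 < z.im} ∧ InjOn ψ {z | 0 < z.im} ∧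
    ψ '' {z | 0 < z.im} = Φ '' Metric.ball 0 1 ∧ ContinuousOn ψ {z | 0 ≤ z.im} ∧
    ψ 0 = Φ 1 ∧ Tendsto ψ (Bornology.cobounded ℂ ⊓ 𝓟 {z | 0 ≤ z.im}) (𝓝 (Φ (-1)))

/-! ### Chordal SLE in the upper half-plane -/

/-- `g` solves on `[0,t]` the Loewner equation `g' = 2 / (g - W)`, `g 0 = z`, inside the open
upper half-plane. -/
def IsLoewnerSol (W : ℝ → ℝ) (z : ℂ) (t : ℝ) (g : ℝ → ℂ) : Prop :=
  g 0 = z ∧ ∀ s ∈ Icc 0 t, 0 < (g s).im ∧
    HasDerivWithinAt g (2 / (g s - (W s : ℂ))) (Icc 0 t) s

/-- The domain of `g_t`: the points of the open upper half-plane whose Loewner solution exists on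
all of `[0,t]`. -/
def loewnerDomain (W : ℝ → ℝ) (t : ℝ) : Set ℂ := {z | ∃ g, IsLoewnerSol W z t g}

/-- The union of the unbounded connected components of `S`. -/
def unbComp (S : Set ℂ) : Set ℂ := {z ∈ S | ¬ Bornology.IsBounded (connectedComponentIn S z)}

/-- `γ` is the trace of the Loewner chain driven by `W`: a continuous curve in the closed upper
half-plane such that for every `t` the domain of `g_t` is the unbounded component of the open upper
half-plane minus `γ [0,t]`. -/
structure IsTrace (W : ℝ → ℝ) (γ : ℝ → ℂ) : Prop where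
  cont : ContinuousOn γ (Ici 0)
  start : γ 0 = (W 0 : ℂ)
  im_nonneg : ∀ t : ℝ, 0 ≤ t → 0 ≤ (γ t).im
  domain_eq : ∀ t : ℝ, 0 ≤ t →
    loewnerDomain W t = unbComp ({z : ℂ | 0 < z.im} \ γ '' Icc 0 t)

/-- `γ` is a chordal `SLE_κ` trace in the upper half-plane, from `0` to `∞`, on the probability space
`(Ω, P)`: the trace driven by `√κ B`, `B` a standard Brownian motion. -/
def IsSLE {Ω : Type*} [MeasurableSpace Ω] (κ : ℝ) (P : Measure Ω) (γ : Ω → ℝ → ℂ) : Prop :=
  ∃ B : NNReal → Ω → ℝ, IsBrownianReal B P ∧
    ∀ᵐ ω ∂P, IsTrace (fun t => √κ * B t.toNNReal ω) (γ ω)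

/-- The parameter of the conjecture. -/
noncomputable def kappa (q : ℝ) : ℝ := 4 * Real.pi / Real.arccos (-√q / 2)

/-- `G` is the curve of chordal `SLE` in `(D; a, b)`: almost surely it starts at `a`, ends at `b` and
is the image under `ψ` of the trace `γ` in the upper half-plane, with the time `s ∈ [0, ∞)`
reparametrized onto `[0,1)` by `t = s / (1 + s)`. -/
def IsSLEIn {Ω : Type*} [MeasurableSpace Ω] (P : Measure Ω) (γ : Ω → ℝ → ℂ) (Φ : ℂ ≃ₜ ℂ)
    (ψ : ℂ → ℂ) (G : Ω → C(unitInterval, ℂ)) : Prop :=
  ∀ᵐ ω ∂P, G ω 0 = Φ 1 ∧ G ω 1 = Φ (-1) ∧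
    ∀ t : unitInterval, (t : ℝ) < 1 → G ω t = ψ (γ ω (t / (1 - t)))

/-! ### The question -/

/-- The distance `d` of curves: `inf sup_t |x (φ₁ t) - y (φ₂ t)|` over the increasing
homeomorphisms `φ₁`, `φ₂` of `[0,1]`. -/
noncomputable def curveDist (x y : C(unitInterval, ℂ)) : ℝ :=
  ⨅ φ : (unitInterval ≃o unitInterval) × (unitInterval ≃o unitInterval),
    ⨆ t, ‖x (φ.1 t) - y (φ.2 t)‖

/-- `F` is bounded and continuous for the metric `d`. -/
def BoundedContinuous (F : C(unitInterval, ℂ) → ℝ) : Prop :=
  (∃ M, ∀ x, |F x| ≤ M) ∧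
    ∀ x, ∀ ε > 0, ∃ η > 0, ∀ y, curveDist x y < η → |F x - F y| < ε

/-- The laws of the interfaces in the domains `D n` converge to the law of the random curve `G`, in
the metric `d`: for all large `n` every configuration has exactly one interface, and the
expectations of all bounded `d`-continuous functions of the interface converge. -/
def ConvergesInLaw (q : ℝ) (D : ℕ → Discrete) {Ω : Type*} [MeasurableSpace Ω] (P : Measure Ω)
    (G : Ω → C(unitInterval, ℂ)) : Prop :=
  (∀ᶠ n in atTop, ∀ A ⊆ (D n).E, ∃! η, IsInterface (D n) A η) ∧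
    ∀ η : ℕ → Finset (Sym2 (ℤ × ℤ)) → C(unitInterval, ℂ),
      (∀ᶠ n in atTop, ∀ A ⊆ (D n).E, IsInterface (D n) A (η n A)) →
      ∀ F, BoundedContinuous F →
        Tendsto (fun n => mean q (D n) fun A => F (η n A)) atTop (𝓝 (∫ ω, F (G ω) ∂P))

/-- The same without sequences, for the Jordan domain given by `Φ`: for every bounded `d`-continuous
`F` and every `ε > 0` there is `r > 0` such that for every discrete domain of mesh less than `r`
whose boundary is at distance less than `r` (in the given parametrizations) the expectations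
differ by less than `ε`. -/
def ConvergesUniformly (q : ℝ) (Φ : ℂ ≃ₜ ℂ) {Ω : Type*} [MeasurableSpace Ω] (P : Measure Ω)
    (G : Ω → C(unitInterval, ℂ)) : Prop :=
  ∀ F, BoundedContinuous F → ∀ ε > 0, ∃ r > 0, ∀ D : Discrete, D.δ < r →
    (∀ t ∈ Icc (0 : ℝ) 1, ‖D.β t - bdry Φ t‖ < r) →
    (∀ A ⊆ D.E, ∃! η, IsInterface D A η) ∧
      ∀ η : Finset (Sym2 (ℤ × ℤ)) → C(unitInterval, ℂ), (∀ A ⊆ D.E, IsInterface D A (η A)) →
        |mean q D (fun A => F (η A)) - ∫ ω, F (G ω) ∂P| < ε

/-- The statement of Q1 for the parameter `q`. Chordal `SLE_κ(q)` exists. For every chordal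
`SLE_κ(q)` trace `γ` in the upper half-plane, on any probability space, every Jordan domain with
marked boundary points `(D; a, b)` and every conformal map `ψ` from the upper half-plane onto it (such
maps exist), the image of the trace is almost surely a curve `G` in `[0,1]`, and for all
approximations `(D_n; a_n, b_n)` the interfaces converge in law to `G` in the metric `d`; the same
without sequences. -/
def Question (q : ℝ) : Prop :=
  (∃ (Ω : Type) (_ : MeasurableSpace Ω) (P : Measure Ω) (_ : IsProbabilityMeasure P)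
    (γ : Ω → ℝ → ℂ), IsSLE (kappa q) P γ) ∧
  ∀ (Ω : Type u) [MeasurableSpace Ω] (P : Measure Ω) [IsProbabilityMeasure P] (γ : Ω → ℝ → ℂ),
    IsSLE (kappa q) P γ → ∀ Φ : ℂ ≃ₜ ℂ, (∃ ψ, IsUniformizer Φ ψ) ∧
    ∀ ψ, IsUniformizer Φ ψ → (∃ G, IsSLEIn P γ Φ ψ G) ∧ ∀ G, IsSLEIn P γ Φ ψ G →
      (∀ F, BoundedContinuous F → AEMeasurable (fun ω => F (G ω)) P) ∧
      (∀ D : ℕ → Discrete, Approximates D Φ → ConvergesInLaw q D P G) ∧
      ConvergesUniformly q Φ P G

/-- The marked Jordan domain `(D; a, b)` has approximations `(D_n; a_n, b_n)` with any given meshes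
tending to `0`, for a parametrization `Φ'` of the same domain with the same marked points (`Φ`
itself if it is counterclockwise). -/
def HasApproximations (Φ : ℂ ≃ₜ ℂ) : Prop :=
  ∃ Φ' : ℂ ≃ₜ ℂ, Φ' '' Metric.ball 0 1 = Φ '' Metric.ball 0 1 ∧ Φ' 1 = Φ 1 ∧ Φ' (-1) = Φ (-1) ∧
    ∀ δ : ℕ → ℝ, (∀ n, 0 < δ n) → Tendsto δ atTop (𝓝 0) →
      ∃ D : ℕ → Discrete, (∀ n, (D n).δ = δ n) ∧ Approximates D Φ'

end Vale.Agent.P167.H72.Lit
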