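import Vale.Agent.P167.H72.Lit.Main
import Vale.Agent.P153.R2.R1.PL
import Vale.Agent.P167.H634.Apx.Sha

/-!
# P167, literal form: existence of approximations
-/

set_option autoImplicit false

open Set Filter Topology

namespace Vale.Agent.P167.H72.Lit

open Vale.Agent.P167.Final (IsPolygon Encloses face verts edges circ toC dom Approx)
open Vale.Agent.P167.E6 (D6 region)
open Vale.Agent.P167.H634.Apx (ctr)
open Vale.Agent.P153.R2 (R1.pl R1.monotone_pl R1.continuous_pl R1.pl_int)

theorem ctr_mem_D6 {δ : ℝ} (hδ : 0 < δ) {S : Finset (ℤ × ℤ)} {f : ℤ × ℤ} (hf : f ∈ S) :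
    (δ : ℂ) * ctr f ∈ D6 δ S := by
  refine mem_interior.2 ⟨{z : ℂ | δ * f.1 < z.re ∧ z.re < δ * (f.1 + 1) ∧ δ * f.2 < z.im ∧
    z.im < δ * (f.2 + 1)}, ?_, ?_, ?_⟩
  · rintro z ⟨h1, h2, h3, h4⟩
    exact ⟨f, hf, h1.le, h2.le, h3.le, h4.le⟩
  · exact (isOpen_lt continuous_const Complex.continuous_re).inter
      ((isOpen_lt Complex.continuous_re continuous_const).inter
      ((isOpen_lt continuous_const Complex.continuous_im).inter
      (isOpen_lt Complex.continuous_im continuous_const)))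
  · have e1 : ((δ : ℂ) * ctr f).re = δ * (f.1 + 1 / 2) := by simp [ctr]
    have e2 : ((δ : ℂ) * ctr f).im = δ * (f.2 + 1 / 2) := by simp [ctr]
    rw [mem_ofPred_eq, e1, e2]
    refine ⟨?_, ?_, ?_, ?_⟩ <;> nlinarith

theorem continuous_bdry (Φ : ℂ ≃ₜ ℂ) : Continuous (bdry Φ) := by
  unfold bdry
  exact Φ.continuous.comp (by fun_prop)

/-- The change of time. -/
theorem exists_time {N k : ℕ} (h0 : 0 < k) (hN : k < N) {τ : ℕ → ℝ} (hτ : Monotone τ)
    (t0 : τ 0 = 0) (tk : τ k = 1 / 2) (tN : τ N = 1) {lam : ℝ} (hl : 0 < lam) (hl1 : lam < 1) :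
    ∃ x : ℝ → ℝ, Continuous x ∧ StrictMono x ∧ x 0 = 0 ∧ x (1 / 2) = k ∧ x 1 = N ∧
      ∀ t ∈ Icc (0 : ℝ) 1, ∃ i < N, (i : ℝ) ≤ x t ∧ x t ≤ i + 1 ∧ ∃ t' ∈ Icc (τ i) (τ (i + 1)),
        |t - t'| ≤ lam := by
  have hk : (0 : ℝ) < k := by exact_mod_cast h0
  have hNk : (0 : ℝ) < (N : ℝ) - k := by
    have : (k : ℝ) < N := by exact_mod_cast hN
    linarith
  set s : ℤ → ℝ := fun i => τ i.toNat with hs
  have hsm : Monotone s := fun i j hij => hτ (Int.toNat_le_toNat hij)
  set g : ℝ → ℝ := R1.pl s with hg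
  have hgm : Monotone g := R1.monotone_pl hsm
  have hgc : Continuous g := R1.continuous_pl s
  have hgi : ∀ i : ℕ, g i = τ i := by
    intro i
    have := R1.pl_int s i
    rw [hs] at this
    simpa using this
  set h : ℝ → ℝ := fun x => if x ≤ k then x / (2 * k) else 1 / 2 + (x - k) / (2 * (N - k)) with hh
  have hhc : Continuous h := by
    refine Continuous.if_le (by fun_prop) (by fun_prop) continuous_id continuous_const ?_
    intro x hx
    rw [hx]
    field_simp
    ring
  have hhm : StrictMono h := by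
    intro x y hxy
    simp only [hh]
    split_ifs with h1 h2 h2
    · gcongr
    · have a1 : x / (2 * k) ≤ 1 / 2 := by
        rw [div_le_iff₀ (by positivity)]
        linarith
      have a2 : 0 < (y - k) / (2 * (N - k)) := div_pos (by linarith) (by positivity)
      linarith
    · linarith
    · gcongr
  have h_0 : h 0 = 0 := by simp [hh, hk.le]
  have h_k : h k = 1 / 2 := by
    simp only [hh, le_refl, if_true]
    field_simp
  have h_N : h N = 1 := by
    have : ¬ (N : ℝ) ≤ k := by linarith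
    simp only [hh, this, if_false]
    field_simp
    ring
  set G : ℝ → ℝ := fun x => (1 - lam) * g x + lam * h x with hG
  have hGc : Continuous G := (continuous_const.mul hgc).add (continuous_const.mul hhc)
  have hGm : StrictMono G := by
    intro x y hxy
    have a1 := hgm hxy.le
    have a2 := hhm hxy
    simp only [hG]
    nlinarith
  have g_0 : g 0 = 0 := by
    have := hgi 0
    simpa [t0] using this
  have G_0 : G 0 = 0 := by simp [hG, g_0, h_0]
  have G_k : G k = 1 / 2 := by
    simp only [hG, hgi, tk, h_k]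
    ring
  have G_N : G N = 1 := by
    simp only [hG, hgi, tN, h_N]
    ring
  have hsurj : Function.Surjective G := by
    intro y
    refine mem_range_of_exists_le_of_exists_ge hGc ?_ ?_
    · refine ⟨min 0 (2 * k * y / lam), ?_⟩
      set a := min 0 (2 * k * y / lam) with ha
      have ha0 : a ≤ 0 := min_le_left _ _
      have ha1 : a ≤ 2 * k * y / lam := min_le_right _ _
      have b1 : g a ≤ 0 := (hgm ha0).trans g_0.le
      have b2 : h a = a / (2 * k) := by simp [hh, ha0.trans hk.le]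
      have b3 : lam * (a / (2 * k)) ≤ y := by
        have : a / (2 * k) ≤ y / lam := by
          rw [div_le_iff₀ (by positivity)]
          calc a ≤ 2 * k * y / lam := ha1
            _ = y / lam * (2 * k) := by ring
        calc lam * (a / (2 * k)) ≤ lam * (y / lam) := by gcongr
          _ = y := by field_simp
      have b4 : (1 - lam) * g a ≤ 0 := mul_nonpos_of_nonneg_of_nonpos (by linarith) b1
      simp only [hG, b2]
      linarith
    · refine ⟨max (k + 1) (k + 2 * (N - k) * y / lam), ?_⟩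
      set b := max ((k : ℝ) + 1) (k + 2 * (N - k) * y / lam) with hb
      have hb0 : (k : ℝ) + 1 ≤ b := le_max_left _ _
      have hb1 : k + 2 * (N - k) * y / lam ≤ b := le_max_right _ _
      have b1 : 0 ≤ g b := g_0.ge.trans (hgm (by linarith))
      have b2 : h b = 1 / 2 + (b - k) / (2 * (N - k)) := by
        have : ¬ b ≤ k := by linarith
        simp [hh, this]
      have b3 : y / lam ≤ (b - k) / (2 * (N - k)) := by
        rw [le_div_iff₀ (by positivity)]
        calc y / lam * (2 * (N - k)) = 2 * (N - k) * y / lam := by ring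
          _ ≤ b - k := by linarith
      have b4 : y ≤ lam * ((b - k) / (2 * (N - k))) := by
        calc y = lam * (y / lam) := by field_simp
          _ ≤ _ := by gcongr
      have b5 : 0 ≤ (1 - lam) * g b := mul_nonneg (by linarith) b1
      simp only [hG, b2]
      nlinarith
  set e : ℝ ≃o ℝ := hGm.orderIsoOfSurjective G hsurj with he
  have eG : ∀ x, e x = G x := fun x => rfl
  have e0 : e.symm 0 = 0 := by rw [e.symm_apply_eq, eG, G_0]
  have ek : e.symm (1 / 2) = k := by rw [e.symm_apply_eq, eG, G_k]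
  have eN : e.symm 1 = N := by rw [e.symm_apply_eq, eG, G_N]
  refine ⟨e.symm, e.symm.continuous, e.symm.strictMono, e0, ek, eN, fun t ht => ?_⟩
  set x := e.symm t with hx
  have hx0 : 0 ≤ x := by rw [← e0]; exact e.symm.monotone ht.1
  have hxN : x ≤ N := by rw [← eN]; exact e.symm.monotone ht.2
  have hGx : G x = t := by rw [← eG, hx, e.apply_symm_apply]
  have hi : ∃ i < N, (i : ℝ) ≤ x ∧ x ≤ i + 1 := by
    rcases hxN.lt_or_eq with h1 | h1
    · refine ⟨⌊x⌋₊, (Nat.floor_lt hx0).2 h1, Nat.floor_le hx0, (Nat.lt_floor_add_one x).le⟩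
    · refine ⟨N - 1, by omega, ?_, ?_⟩
      · rw [h1]
        exact_mod_cast Nat.sub_le N 1
      · rw [h1, Nat.cast_sub (by omega)]
        push_cast
        linarith
  obtain ⟨i, hiN, hi1, hi2⟩ := hi
  refine ⟨i, hiN, hi1, hi2, g x, ⟨?_, ?_⟩, ?_⟩
  · rw [← hgi]
    exact hgm hi1
  · rw [← hgi]
    refine hgm ?_
    push_cast
    exact hi2
  · have c1 : 0 ≤ g x := g_0.ge.trans (hgm hx0)
    have c2 : g x ≤ 1 := by
      rw [← tN, ← hgi]
      exact hgm hxN
    have c3 : 0 ≤ h x := by rw [← h_0]; exact hhm.monotone hx0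
    have c4 : h x ≤ 1 := by rw [← h_N]; exact hhm.monotone hxN
    have c5 : t - g x = lam * (h x - g x) := by
      rw [← hGx]
      simp only [hG]
      ring
    rw [c5, abs_mul, abs_of_pos hl]
    have c6 : |h x - g x| ≤ 1 := abs_le.2 ⟨by linarith, by linarith⟩
    nlinarith [abs_nonneg (h x - g x)]

/-- A discrete domain from the data of `Final.Approx`. -/
theorem exists_discrete {δ : ℝ} {N k : ℕ} {p : ZMod N → ℤ × ℤ} {S : Finset (ℤ × ℤ)} (hδ : 0 < δ)
    (h0 : 0 < k) (hN : k < N) (hp : IsPolygon p) (hS : Encloses p S) {Φ : ℂ ≃ₜ ℂ} {τ : ℕ → ℝ}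
    (hτ : Monotone τ) (t0 : τ 0 = 0) (tk : τ k = 1 / 2) (tN : τ N = 1) {ε ε' : ℝ} (hε' : 0 < ε')
    (h : ∀ i < N, ∀ t ∈ Icc (τ i) (τ (i + 1)), dist ((δ : ℂ) * pt (p i)) (bdry Φ t) < ε) :
    ∃ D : Discrete, D.δ = δ ∧ ∀ t ∈ Icc (0 : ℝ) 1, dist (D.β t) (bdry Φ t) < δ + ε + ε' := by
  have hu := Metric.uniformContinuousOn_iff.1 (isCompact_Icc.uniformContinuousOn_of_continuous
    (continuous_bdry Φ).continuousOn (s := Icc (0 : ℝ) 1)) ε' hε'
  obtain ⟨l0, hl0, hu⟩ := hu
  have hnn : ∀ i, dist (pt (p i)) (pt (p (i + 1))) = 1 := fun i => dist_one.2 (hp.2.2 i)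
  obtain ⟨x, hxc, hxm, x0, xh, x1, hx⟩ := exists_time h0 hN hτ t0 tk tN
    (lam := min (1 / 2) (l0 / 2)) (lt_min (by norm_num) (by positivity))
    (lt_of_le_of_lt (min_le_left _ _) (by norm_num))
  have hin : inside δ p = D6 δ S := inside_eq hδ hp hS
  refine ⟨{ δ := δ, N := N, p := p, u := fun t => x t - 1 / 2, k := k, V := verts S, E := edges S,
            δ_pos := hδ, two_lt := hp.1, inj := hp.2.1, nn := hnn,
            ccw := ?_, u_cont := (hxc.sub continuous_const).continuousOn,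
            u_mono := fun a _ b _ hab => by
              have := hxm hab
              dsimp only
              linarith
            u_one := by
              simp only [x0, x1]
              ring
            u_zero := by
              simp only [x0]
              constructor <;> norm_num
            u_half := by
              simp only [xh]
              constructor <;> linarith
            mem_V := mem_verts_iff hδ hp hS
            mem_E := mem_edges_iff hδ hp hS }, rfl, ?_⟩
  · intro i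
    obtain ⟨r, hr⟩ := hp.2.2 i
    rw [left_ctr (r := r) hr, hin]
    exact ctr_mem_D6 hδ ((hS (p i) r).1 ⟨i, rfl, hr⟩).1
  · intro t ht
    obtain ⟨i, hi, h1, h2, t', ht', h3⟩ := hx t ht
    have hI : t' ∈ Icc (0 : ℝ) 1 :=
      ⟨(t0 ▸ hτ (Nat.zero_le i)).trans ht'.1, ht'.2.trans (tN ▸ hτ (by omega))⟩
    have b1 := h i hi t' ht'
    have b2 := hu t' hI t ht (by
      rw [dist_comm, Real.dist_eq]
      refine lt_of_le_of_lt h3 (lt_of_le_of_lt (min_le_right _ _) (by linarith)))
    have b3 := dist_line (p := p) (i := (i : ℤ)) (x := x t - 1 / 2) hδ hnn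
      (by rw [Int.cast_natCast]; linarith) (by rw [Int.cast_natCast]; linarith)
    have a5 : ((i : ℤ) : ZMod N) = (i : ZMod N) := by simp
    rw [a5] at b3
    show dist (line δ p (x t - 1 / 2)) (bdry Φ t) < _
    have b4 := dist_triangle4 (line δ p (x t - 1 / 2)) ((δ : ℂ) * pt (p i)) (bdry Φ t') (bdry Φ t)
    rw [dist_comm (line δ p (x t - 1 / 2)) ((δ : ℂ) * pt (p i))] at b4
    linarith

/-- The homeomorphism of `ℂ`. -/
noncomputable def unconj (Φ : (ℝ × ℝ) ≃ₜ (ℝ × ℝ)) : ℂ ≃ₜ ℂ := (eC.trans Φ).trans eC.symm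

theorem conj_unconj (Φ : (ℝ × ℝ) ≃ₜ (ℝ × ℝ)) : conj (unconj Φ) = Φ := by
  ext1 w
  show eC (eC.symm (Φ (eC (eC.symm w)))) = Φ w
  rw [Homeomorph.apply_symm_apply, Homeomorph.apply_symm_apply]

/-- An approximation gives discrete domains with the same meshes. -/
theorem exists_seq {Φ : ℂ ≃ₜ ℂ} {δ : ℕ → ℝ} {N k : ℕ → ℕ} {p : ∀ n, ZMod (N n) → ℤ × ℤ}
    {S : ℕ → Finset (ℤ × ℤ)} (H : Approx (conj Φ) δ N k p S) :
    ∃ D : ℕ → Discrete, (∀ n, (D n).δ = δ n) ∧ Approximates D Φ := by
  obtain ⟨H1, H2, H3⟩ := H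
  have hpi := Real.pi_pos
  -- the precision
  set Q : ℕ → ℝ → Prop := fun n e => ∃ D : Discrete, D.δ = δ n ∧
    ∀ t ∈ Icc (0 : ℝ) 1, dist (D.β t) (bdry Φ t) < e with hQ
  have hQpos : ∀ n e, Q n e → 0 < e := fun n e ⟨D, _, h⟩ =>
    lt_of_le_of_lt dist_nonneg (h 0 ⟨le_rfl, zero_le_one⟩)
  have hev : ∀ e : ℝ, 0 < e → ∀ᶠ n in atTop, Q n e := by
    intro e he
    have h2 : ∀ᶠ n in atTop, δ n < e / 3 := H2.eventually_lt_const (by positivity)
    filter_upwards [H3 (e / 3) (by positivity), h2] with n ⟨s, hs1, hs2, hs3, hs4, hs5⟩ hn2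
    obtain ⟨a1, a2, a3, a4, a5⟩ := H1 n
    obtain ⟨D, hD1, hD2⟩ := exists_discrete (Φ := Φ) (τ := fun i => s i / (2 * Real.pi))
      (ε := e / 3) (ε' := e / 3) a1 a2 a3 a4 a5
      (fun i j hij => by
        have := hs1 hij
        dsimp only
        gcongr)
      (by simp [hs2]) (by rw [hs3]; field_simp) (by rw [hs4]; field_simp) (by positivity)
      (by
        intro i hi t ht
        have h5 := hs5 i hi (t * (2 * Real.pi))
          ⟨by
            have := (div_le_iff₀ (by positivity)).1 ht.1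
            linarith, by
            have := (le_div_iff₀ (by positivity)).1 ht.2
            linarith⟩
        rw [toC_conj_circ, mul_div_cancel_right₀ _ (by positivity)] at h5
        exact h5)
    exact ⟨D, hD1, fun t ht => (hD2 t ht).trans_le (by linarith)⟩
  have hne : ∀ n, ∃ e, Q n e := by
    intro n
    obtain ⟨a1, a2, a3, a4, a5⟩ := H1 n
    have hNz : NeZero (N n) := ⟨by omega⟩
    -- some times
    set τ : ℕ → ℝ := fun i => if i = 0 then 0 else if i < N n then 1 / 2 else 1 with hτ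
    have hτm : Monotone τ := by
      refine monotone_nat_of_le_succ fun i => ?_
      simp only [hτ]
      split_ifs <;> first | contradiction | omega | norm_num
    -- a bound
    obtain ⟨R1, hR1⟩ := (isCompact_Icc (a := (0 : ℝ)) (b := 1)).exists_bound_of_continuousOn
      (continuous_bdry Φ).continuousOn
    obtain ⟨R2, hR2⟩ : ∃ R2 : ℝ, ∀ i : ZMod (N n), ‖(δ n : ℂ) * pt (p n i)‖ ≤ R2 := by
      have : Finite (ZMod (N n)) := inferInstance
      obtain ⟨R2, h⟩ := (Set.finite_range fun i : ZMod (N n) =>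
        ‖(δ n : ℂ) * pt (p n i)‖).bddAbove
      exact ⟨R2, fun i => h ⟨i, rfl⟩⟩
    have t0 : τ 0 = 0 := by simp [hτ]
    have tN : τ (N n) = 1 := by
      have : N n ≠ 0 := by omega
      simp [hτ, this]
    obtain ⟨D, hD1, hD2⟩ := exists_discrete (Φ := Φ) (τ := τ)
      (ε := R1 + R2 + 1) (ε' := 1) a1 a2 a3 a4 a5 hτm t0
      (by
        have : k n ≠ 0 := by omega
        simp [hτ, this, a3]) tN one_pos
      (by
        intro i hi t ht
        have hI : t ∈ Icc (0 : ℝ) 1 :=
          ⟨(t0 ▸ hτm (Nat.zero_le i)).trans ht.1, ht.2.trans (tN ▸ hτm (by omega))⟩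
        have b1 := hR1 t hI
        have b2 := hR2 i
        have b3 := dist_le_norm_add_norm ((δ n : ℂ) * pt (p n i)) (bdry Φ t)
        linarith)
    exact ⟨_, D, hD1, hD2⟩
  have hbd : ∀ n, BddBelow {e | Q n e} := fun n => ⟨0, fun e he => (hQpos n e he).le⟩
  have hsel : ∀ n, ∃ D : Discrete, D.δ = δ n ∧ ∀ t ∈ Icc (0 : ℝ) 1,
      dist (D.β t) (bdry Φ t) < sInf {e | Q n e} + 1 / ((n : ℝ) + 1) := by
    intro n
    obtain ⟨e, he, he'⟩ := exists_lt_of_csInf_lt (s := {e | Q n e}) (hne n)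
      (show sInf {e | Q n e} < sInf {e | Q n e} + 1 / ((n : ℝ) + 1) by
        have : 0 < 1 / ((n : ℝ) + 1) := by positivity
        linarith)
    obtain ⟨D, hD1, hD2⟩ := he
    exact ⟨D, hD1, fun t ht => (hD2 t ht).trans he'⟩
  choose D hD1 hD2 using hsel
  refine ⟨D, hD1, ?_, ?_⟩
  · simp only [hD1]
    exact H2
  · rw [Metric.tendstoUniformlyOn_iff]
    intro e he
    filter_upwards [hev (e / 2) (by positivity),
      (tendsto_one_div_add_atTop_nhds_zero_nat (𝕜 := ℝ)).eventually_lt_const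
        (show (0 : ℝ) < e / 2 by positivity)] with n hn1 hn2 t ht
    have h1 : sInf {e | Q n e} ≤ e / 2 := csInf_le (hbd n) hn1
    have h2 := hD2 n t ht
    rw [dist_comm]
    linarith

/-- **Every marked Jordan domain has approximations, for all sequences of meshes** (for one of the
two directions of the boundary). -/
theorem exists_approx (Φ : ℂ ≃ₜ ℂ) : HasApproximations Φ := by
  obtain ⟨Ψ, -, h1, h2, h3, -, h5⟩ := H634.Apx.exap_all (conj Φ)
  have e := conj_unconj Ψ
  refine ⟨unconj Ψ, ?_, ?_, ?_, ?_⟩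
  · rw [← dom_conj, ← dom_conj, e]
    have h1' : dom Ψ = dom (conj Φ) := h1
    rw [h1']
  · rw [← toC_zero, ← toC_zero, e]
    exact congrArg toC h2
  · rw [← toC_pi, ← toC_pi, e]
    exact congrArg toC h3
  · intro δ hδ hδ0
    obtain ⟨N, k, p, S, H⟩ := h5 δ hδ hδ0
    refine exists_seq (N := N) (k := k) (p := p) (S := S) ?_
    rw [e]
    exact H

end Vale.Agent.P167.H72.Lit
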