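import Vale.Agent.P167.H72.Lit.Defs
import Vale.Agent.P167.E6.Poly6
import Vale.Agent.P167.H634.Apx.Jor2
import Vale.Agent.P167.H634.Apx.Wind
import Vale.Agent.P167.Final.Question

/-!
# P167, literal form: the interior of a lattice polygon
-/

set_option autoImplicit false

namespace Vale.Agent.P167.H72.Lit

open Filter Topology Set
open Vale.Agent.P167 (E6.D6 E6.PF6)
open Vale.Agent.P153.R2 (POLY.DD POLY.RR)

/-! ### The exterior is connected -/

section Tri

open Vale.Agent.P153.R2.POLY Vale.Agent.P153.R2.Final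

variable {n : ℕ} {p : ZMod n → ℤ × ℤ} {S : Finset Tri}

theorem isPreconnected_DDc (hp : IsPolygon p) (hS : Encloses p S) :
    IsPreconnected (DD (S : Set Tri)ᶜ) := by
  obtain ⟨t0, ht0⟩ := exists_notMem S
  have hc0 : cen t0 ∈ DD (S : Set Tri)ᶜ := ot_sub_DD ht0 (cen_mem t0)
  set C := connectedComponentIn (DD (S : Set Tri)ᶜ) (cen t0) with hC
  set T : Set Tri := {t | t ∉ S ∧ cen t ∈ C} with hT
  have key := (two_sides_set hp hS (T := T) (by
    intro v k hk
    rw [side_dir hS] at hk
    have hk' : tb v k ∈ S ↔ ta v k ∈ S := by tauto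
    by_cases hb : tb v k ∈ S
    · have ha := hk'.1 hb
      exact ⟨fun h => absurd hb h.1, fun h => absurd ha h.1⟩
    · have ha : ta v k ∉ S := fun h => hb (hk'.2 h)
      obtain ⟨A, hA, hAS, h1, h2⟩ := preconn_two v k (T := (S : Set Tri)ᶜ) ha hb
      constructor
      · rintro ⟨_, h⟩
        exact ⟨ha, same_comp hA hAS h2 h1 h⟩
      · rintro ⟨_, h⟩
        exact ⟨hb, same_comp hA hAS h1 h2 h⟩)).2
  have h0 : t0 ∈ T := ⟨ht0, mem_connectedComponentIn hc0⟩
  have hall : DD (S : Set Tri)ᶜ ⊆ C := by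
    intro z hz
    obtain ⟨t, ht⟩ := exists_ct z
    have htS : t ∉ S := hz t ht
    have h1 : cen t ∈ C := ((key t0 t ht0 htS).1 h0).2
    refine same_comp (preconn_insert ht) ?_ (mem_insert_of_mem _ (cen_mem t)) (mem_insert _ _) h1
    rintro w (rfl | hw)
    · exact hz
    · exact ot_sub_DD htS hw
  have he : DD (S : Set Tri)ᶜ = C := Subset.antisymm hall (connectedComponentIn_subset _ _)
  rw [he]
  exact isPreconnected_connectedComponentIn

end Tri

open Vale.Agent.P167.E6 (IsPolygon Encloses face region D6 PF6 N6)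
open Vale.Agent.P167.H634.Apx (ctr exists_encloses isPolygon_neg)

variable {n : ℕ} {p : ZMod n → ℤ × ℤ} {S : Finset (ℤ × ℤ)} {δ : ℝ}

theorem isPreconnected_compl_region (hδ : 0 < δ) (hp : IsPolygon p) (hS : Encloses p S) :
    IsPreconnected (region δ S)ᶜ := by
  have h : (region δ S)ᶜ = N6 hδ ⁻¹' Vale.Agent.P153.R2.POLY.DD
      ((Vale.Agent.P167.E6.tri S : Set Vale.Agent.P153.R2.Final.Tri))ᶜ := by
    rw [Vale.Agent.P153.R2.POLY.DD_eq, compl_compl, E6.region_eq6 hδ, preimage_compl]
  rw [h, (N6 hδ).isPreconnected_preimage]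
  exact isPreconnected_DDc hp.tri (E6.Encloses.tri hp hS)

theorem not_isBounded_compl_region (hδ : 0 < δ) (S : Finset (ℤ × ℤ)) :
    ¬ Bornology.IsBounded (region δ S)ᶜ := by
  intro h
  have h2 := (E6.isCompact_region6 hδ S).isBounded.union h
  rw [union_compl_self] at h2
  exact NormedSpace.unbounded_univ ℝ ℂ h2

theorem curve_eq (hn : n ≠ 0) : curve δ p = range (PF6 p δ) := (E6.range_PF6 hn).symm

/-- **The interior of the polygon is the interior of the union of the enclosed faces.** -/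
theorem inside_eq (hδ : 0 < δ) (hp : IsPolygon p) (hS : Encloses p S) :
    inside δ p = D6 δ S := by
  have hn : n ≠ 0 := by have := hp.1; omega
  have hfr : frontier (D6 δ S) = curve δ p := by
    rw [curve_eq hn, E6.frontier_D6 hδ hp hS]
  have hreg : region δ S = D6 δ S ∪ curve δ p := by
    rw [← E6.closure_D6 hδ S, closure_eq_self_union_frontier, hfr]
  have hdis : Disjoint (D6 δ S) (curve δ p) := by
    rw [← hfr]
    exact (disjoint_frontier_iff_isOpen.2 (E6.isOpen_D6 δ S)).symm
  apply Subset.antisymm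
  · rintro z ⟨hz1, hz2⟩
    by_contra hz
    have hzr : z ∈ (region δ S)ᶜ := by
      rw [hreg]
      rintro (h | h)
      · exact hz h
      · exact hz1 h
    refine not_isBounded_compl_region hδ S (hz2.subset ?_)
    refine (isPreconnected_compl_region hδ hp hS).subset_connectedComponentIn hzr ?_
    rw [compl_subset_compl, hreg]
    exact subset_union_right
  · intro z hz
    refine ⟨fun h => disjoint_left.1 hdis hz h, ?_⟩
    refine (E6.isBounded_D6 hδ S).subset ?_
    have hc : IsPreconnected (connectedComponentIn (curve δ p)ᶜ z) :=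
      isPreconnected_connectedComponentIn
    have hzc : z ∈ (curve δ p)ᶜ := fun h => disjoint_left.1 hdis hz h
    refine hc.subset_left_of_subset_union (E6.isOpen_D6 δ S)
      (E6.isCompact_region6 hδ S).isClosed.isOpen_compl ?_ ?_ ⟨z, mem_connectedComponentIn hzc, hz⟩
    · exact disjoint_compl_right.mono_left interior_subset
    · intro w hw
      by_cases h : w ∈ region δ S
      · rw [hreg] at h
        exact h.elim Or.inl fun h => absurd h (connectedComponentIn_subset _ _ hw)
      · exact Or.inr h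

theorem curve_neg : curve δ (fun i => p (-i)) = curve δ p := by
  unfold curve
  apply Subset.antisymm
  · refine iUnion_subset fun i => ?_
    refine subset_iUnion_of_subset (-i - 1) ?_
    dsimp only
    rw [segment_symm, show -i - 1 + 1 = -i by ring, show -(i + 1) = -i - 1 by ring]
  · refine iUnion_subset fun i => ?_
    refine subset_iUnion_of_subset (-i - 1) ?_
    dsimp only
    rw [segment_symm, show -(-i - 1) = i + 1 by ring, show -(-i - 1 + 1) = i by ring]

theorem inside_neg : inside δ (fun i => p (-i)) = inside δ p := by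
  unfold inside
  rw [curve_neg]

/-! ### Adjacent vertices -/

theorem dist_one {v w : ℤ × ℤ} : dist (pt v) (pt w) = 1 ↔ ∃ r, w = v + dir r := by
  have h1 : dist (pt v) (pt w) = 1 ↔ (v.1 - w.1) ^ 2 + (v.2 - w.2) ^ 2 = 1 := by
    rw [Complex.dist_eq, ← sq_eq_sq₀ (norm_nonneg _) zero_le_one, one_pow, Complex.sq_norm,
      Complex.normSq_apply]
    have e1 : (pt v - pt w).re = ((v.1 - w.1 : ℤ) : ℝ) := by simp [pt]
    have e2 : (pt v - pt w).im = ((v.2 - w.2 : ℤ) : ℝ) := by simp [pt]
    rw [e1, e2]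
    constructor
    · intro h
      have h' : (v.1 - w.1) * (v.1 - w.1) + (v.2 - w.2) * (v.2 - w.2) = 1 := by exact_mod_cast h
      nlinarith
    · intro h
      have h' : (v.1 - w.1) * (v.1 - w.1) + (v.2 - w.2) * (v.2 - w.2) = 1 := by nlinarith
      exact_mod_cast h'
  rw [h1]
  obtain ⟨a, b⟩ := v
  obtain ⟨c, d⟩ := w
  constructor
  · intro h
    simp only at h
    have hx : -1 ≤ a - c ∧ a - c ≤ 1 := ⟨by nlinarith [sq_nonneg (b - d)], by nlinarith [sq_nonneg (b - d)]⟩
    have hy : -1 ≤ b - d ∧ b - d ≤ 1 := ⟨by nlinarith [sq_nonneg (a - c)], by nlinarith [sq_nonneg (a - c)]⟩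
    obtain ⟨x1, x2⟩ := hx
    obtain ⟨y1, y2⟩ := hy
    generalize hX : a - c = X at *
    generalize hY : b - d = Y at *
    have hXs : X = -1 ∨ X = 0 ∨ X = 1 := by omega
    have hYs : Y = -1 ∨ Y = 0 ∨ Y = 1 := by omega
    rcases hXs with rfl | rfl | rfl <;> rcases hYs with rfl | rfl | rfl <;> norm_num at h
    · exact ⟨0, by ext <;> simp [dir] <;> omega⟩
    · exact ⟨1, by ext <;> simp [dir] <;> omega⟩
    · exact ⟨3, by ext <;> simp [dir] <;> omega⟩
    · exact ⟨2, by ext <;> simp [dir] <;> omega⟩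
  · rintro ⟨r, hr⟩
    fin_cases r <;> simp [dir] at hr <;> obtain ⟨rfl, rfl⟩ := hr <;> simp

/-! ### The centre of a face -/

theorem ctr_region (hδ : 0 < δ) {f : ℤ × ℤ} (h : (δ : ℂ) * ctr f ∈ region δ S) : f ∈ S := by
  obtain ⟨g, hg, h1, h2, h3, h4⟩ := h
  have e1 : ((δ : ℂ) * ctr f).re = δ * (f.1 + 1 / 2) := by simp [ctr]
  have e2 : ((δ : ℂ) * ctr f).im = δ * (f.2 + 1 / 2) := by simp [ctr]
  rw [e1] at h1 h2
  rw [e2] at h3 h4
  have a1 := le_of_mul_le_mul_left h1 hδ
  have a2 := le_of_mul_le_mul_left h2 hδ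
  have a3 := le_of_mul_le_mul_left h3 hδ
  have a4 := le_of_mul_le_mul_left h4 hδ
  have : f = g := H634.Apx.ctr_mem ⟨a1, a2, a3, a4⟩
  rwa [this]

theorem left_ctr {v w : ℤ × ℤ} {r : Fin 4} (h : w = v + dir r) :
    pt v + (1 + Complex.I) / 2 * (pt w - pt v) = ctr (face v r) := by
  subst h
  obtain ⟨a, b⟩ := v
  fin_cases r <;> apply Complex.ext <;> simp [pt, dir, ctr, face] <;> ring

/-- **A counterclockwise polygon encloses its set of faces.** -/
theorem encloses_of_ccw (hδ : 0 < δ) (hp : IsPolygon p)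
    (hc : ∀ i, δ * (pt (p i) + (1 + Complex.I) / 2 * (pt (p (i + 1)) - pt (p i))) ∈ inside δ p) :
    ∃ S : Finset (ℤ × ℤ), Encloses p S := by
  have : NeZero n := ⟨by have := hp.1; omega⟩
  obtain ⟨S, hS | hS⟩ := exists_encloses hp
  · exact ⟨S, hS⟩
  · exfalso
    have hq : IsPolygon (fun i => p (-i)) := isPolygon_neg hp
    have hin : inside δ p = D6 δ S := by
      rw [← inside_neg, inside_eq hδ hq hS]
    obtain ⟨r, hr⟩ := hp.2.2 0
    have h1 := hc 0
    rw [left_ctr (r := r) hr, hin] at h1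
    have h2 : face (p 0) r ∈ S := ctr_region hδ (interior_subset h1)
    have hr' : p 0 = p (0 + 1) + E6.dir (r + 2) := by
      rw [hr]
      have : E6.dir r + E6.dir (r + 2) = 0 := by fin_cases r <;> rfl
      rw [add_assoc, this, add_zero]
    have h3 := (hS (p (0 + 1)) (r + 2)).1 ⟨-1, by simp, by
      rw [← hr']
      simp⟩
    have h4 : face (p (0 + 1)) (r + 2 - 1) = face (p 0) r := by
      rw [hr]
      obtain ⟨a, b⟩ := p 0
      fin_cases r <;> simp [face, E6.dir]
    rw [h4] at h3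
    exact h3.2 h2

end Vale.Agent.P167.H72.Lit
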