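import Vale.Agent.P167.H72.Lit.Geo

/-!
# P167, literal form: the graph
-/

set_option autoImplicit false

namespace Vale.Agent.P167.H72.Lit

open Filter Topology Set
open Vale.Agent.P167.E6 (D6 region)
open Vale.Agent.P167.Final (IsPolygon Encloses face verts edges)

variable (D : Discrete)

theorem isPolygon : IsPolygon D.p := by
  refine ⟨D.two_lt, D.inj, fun i => ?_⟩
  obtain ⟨r, hr⟩ := dist_one.1 (D.nn i)
  exact ⟨r, hr⟩

theorem exists_S : ∃ S : Finset (ℤ × ℤ), Encloses D.p S :=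
  encloses_of_ccw D.δ_pos (isPolygon D) D.ccw

variable {D} {S : Finset (ℤ × ℤ)} {n : ℕ} {p : ZMod n → ℤ × ℤ}

theorem closure_inside {δ : ℝ} (hδ : 0 < δ) (hp : IsPolygon p) (hS : Encloses p S) :
    closure (inside δ p) = region δ S := by
  rw [inside_eq hδ hp hS, E6.closure_D6 hδ S]

theorem mem_region_pt {δ : ℝ} (hδ : 0 < δ) {v : ℤ × ℤ} : (δ : ℂ) * pt v ∈ region δ S ↔
    ∃ f ∈ S, f.1 ≤ v.1 ∧ v.1 ≤ f.1 + 1 ∧ f.2 ≤ v.2 ∧ v.2 ≤ f.2 + 1 := by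
  have e1 : ((δ : ℂ) * pt v).re = δ * v.1 := by simp [pt]
  have e2 : ((δ : ℂ) * pt v).im = δ * v.2 := by simp [pt]
  unfold region
  rw [mem_ofPred_eq, e1, e2]
  refine exists_congr fun f => and_congr_right fun _ => ?_
  rw [mul_le_mul_iff_right₀ hδ, mul_le_mul_iff_right₀ hδ, mul_le_mul_iff_right₀ hδ,
    mul_le_mul_iff_right₀ hδ]
  norm_cast

theorem mem_verts {v : ℤ × ℤ} : v ∈ verts S ↔
    ∃ f ∈ S, f.1 ≤ v.1 ∧ v.1 ≤ f.1 + 1 ∧ f.2 ≤ v.2 ∧ v.2 ≤ f.2 + 1 := by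
  unfold verts
  rw [Finset.mem_biUnion]
  refine exists_congr fun f => and_congr_right fun _ => ?_
  simp only [Finset.mem_insert, Finset.mem_singleton, Prod.ext_iff, Prod.fst_add, Prod.snd_add]
  omega

theorem mem_verts_iff {δ : ℝ} (hδ : 0 < δ) (hp : IsPolygon p) (hS : Encloses p S) (v : ℤ × ℤ) :
    v ∈ verts S ↔ (δ : ℂ) * pt v ∈ closure (inside δ p) := by
  rw [closure_inside hδ hp hS, mem_region_pt hδ, mem_verts]

theorem V_eq (hS : Encloses D.p S) : D.V = verts S := by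
  ext v
  rw [D.mem_V, mem_verts_iff D.δ_pos (isPolygon D) hS]

/-- The closed square. -/
theorem convex_sq (δ : ℝ) (f : ℤ × ℤ) : Convex ℝ {z : ℂ | δ * f.1 ≤ z.re ∧ z.re ≤ δ * (f.1 + 1) ∧
    δ * f.2 ≤ z.im ∧ z.im ≤ δ * (f.2 + 1)} := by
  have h1 : Convex ℝ {z : ℂ | δ * f.1 ≤ z.re} := convex_halfSpace_re_ge _
  have h2 : Convex ℝ {z : ℂ | z.re ≤ δ * (f.1 + 1)} := convex_halfSpace_re_le _
  have h3 : Convex ℝ {z : ℂ | δ * f.2 ≤ z.im} := convex_halfSpace_im_ge _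
  have h4 : Convex ℝ {z : ℂ | z.im ≤ δ * (f.2 + 1)} := convex_halfSpace_im_le _
  exact h1.inter (h2.inter (h3.inter h4))

theorem seg_sub {δ : ℝ} (hδ : 0 < δ) {f v w : ℤ × ℤ} (hf : f ∈ S)
    (hv : f.1 ≤ v.1 ∧ v.1 ≤ f.1 + 1 ∧ f.2 ≤ v.2 ∧ v.2 ≤ f.2 + 1)
    (hw : f.1 ≤ w.1 ∧ w.1 ≤ f.1 + 1 ∧ f.2 ≤ w.2 ∧ w.2 ≤ f.2 + 1) :
    segment ℝ ((δ : ℂ) * pt v) (δ * pt w) ⊆ region δ S := by
  have key : ∀ v : ℤ × ℤ, (f.1 ≤ v.1 ∧ v.1 ≤ f.1 + 1 ∧ f.2 ≤ v.2 ∧ v.2 ≤ f.2 + 1) →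
      (δ : ℂ) * pt v ∈ {z : ℂ | δ * f.1 ≤ z.re ∧ z.re ≤ δ * (f.1 + 1) ∧
        δ * f.2 ≤ z.im ∧ z.im ≤ δ * (f.2 + 1)} := by
    intro v hv
    have e1 : ((δ : ℂ) * pt v).re = δ * v.1 := by simp [pt]
    have e2 : ((δ : ℂ) * pt v).im = δ * v.2 := by simp [pt]
    rw [mem_ofPred_eq, e1, e2, mul_le_mul_iff_right₀ hδ, mul_le_mul_iff_right₀ hδ,
      mul_le_mul_iff_right₀ hδ, mul_le_mul_iff_right₀ hδ]
    exact_mod_cast hv
  intro z hz
  have := (convex_sq δ f).segment_subset (key v hv) (key w hw) hz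
  exact ⟨f, hf, this⟩

theorem mid_region {δ : ℝ} (hδ : 0 < δ) {v w : ℤ × ℤ}
    (h : segment ℝ ((δ : ℂ) * pt v) (δ * pt w) ⊆ region δ S) :
    ∃ f ∈ S, 2 * f.1 ≤ v.1 + w.1 ∧ v.1 + w.1 ≤ 2 * f.1 + 2 ∧ 2 * f.2 ≤ v.2 + w.2 ∧
      v.2 + w.2 ≤ 2 * f.2 + 2 := by
  have hm : ((δ : ℂ) * ((pt v + pt w) / 2)) ∈ segment ℝ ((δ : ℂ) * pt v) (δ * pt w) := by
    refine ⟨1 / 2, 1 / 2, by norm_num, by norm_num, by norm_num, ?_⟩
    rw [Complex.real_smul, Complex.real_smul]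
    push_cast
    ring
  obtain ⟨f, hf, h1, h2, h3, h4⟩ := h hm
  have e1 : ((δ : ℂ) * ((pt v + pt w) / 2)).re = δ * (((v.1 : ℝ) + w.1) / 2) := by
    have : ((pt v + pt w) / 2 : ℂ).re = ((v.1 : ℝ) + w.1) / 2 := by
      rw [Complex.div_re]
      simp [pt]
      ring
    rw [Complex.re_ofReal_mul, this]
  have e2 : ((δ : ℂ) * ((pt v + pt w) / 2)).im = δ * (((v.2 : ℝ) + w.2) / 2) := by
    have : ((pt v + pt w) / 2 : ℂ).im = ((v.2 : ℝ) + w.2) / 2 := by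
      rw [Complex.div_im]
      simp [pt]
      ring
    rw [Complex.im_ofReal_mul, this]
  rw [e1] at h1 h2
  rw [e2] at h3 h4
  have a1 := le_of_mul_le_mul_left h1 hδ
  have a2 := le_of_mul_le_mul_left h2 hδ
  have a3 := le_of_mul_le_mul_left h3 hδ
  have a4 := le_of_mul_le_mul_left h4 hδ
  refine ⟨f, hf, ?_, ?_, ?_, ?_⟩
  · have : (2 * f.1 : ℝ) ≤ v.1 + w.1 := by linarith
    exact_mod_cast this
  · have : (v.1 + w.1 : ℝ) ≤ 2 * f.1 + 2 := by linarith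
    exact_mod_cast this
  · have : (2 * f.2 : ℝ) ≤ v.2 + w.2 := by linarith
    exact_mod_cast this
  · have : (v.2 + w.2 : ℝ) ≤ 2 * f.2 + 2 := by linarith
    exact_mod_cast this

theorem mem_edges {v w : ℤ × ℤ} : s(v, w) ∈ edges S ↔ ∃ f ∈ S, s(v, w) = s(f, f + (1, 0)) ∨
    s(v, w) = s(f, f + (0, 1)) ∨ s(v, w) = s(f + (1, 0), f + (1, 1)) ∨
    s(v, w) = s(f + (0, 1), f + (1, 1)) := by
  unfold edges
  rw [Finset.mem_biUnion]
  refine exists_congr fun f => and_congr_right fun _ => ?_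
  simp only [Finset.mem_insert, Finset.mem_singleton]

theorem edges_of {v w : ℤ × ℤ} {f : ℤ × ℤ} (hf : f ∈ S)
    (h : s(v, w) = s(f, f + (1, 0)) ∨
    s(v, w) = s(f, f + (0, 1)) ∨ s(v, w) = s(f + (1, 0), f + (1, 1)) ∨
    s(v, w) = s(f + (0, 1), f + (1, 1))) : s(v, w) ∈ edges S := mem_edges.2 ⟨f, hf, h⟩

theorem mem_edges_iff {δ : ℝ} (hδ : 0 < δ) (hp : IsPolygon p) (hS : Encloses p S) (v w : ℤ × ℤ) :
    s(v, w) ∈ edges S ↔ dist (pt v) (pt w) = 1 ∧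
      segment ℝ ((δ : ℂ) * pt v) (δ * pt w) ⊆ closure (inside δ p) := by
    rw [closure_inside hδ hp hS, iff_comm]
    constructor
    · rintro ⟨h1, h2⟩
      obtain ⟨r, rfl⟩ := dist_one.1 h1
      obtain ⟨f, hf, a1, a2, a3, a4⟩ := mid_region hδ h2
      obtain ⟨a, b⟩ := v
      obtain ⟨x, y⟩ := f
      fin_cases r <;> simp [dir] at a1 a2 a3 a4
      · obtain rfl : x = a := by omega
        rcases (show y = b ∨ y + 1 = b by omega) with rfl | rfl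
        · exact edges_of hf (Or.inl (by simp [dir]))
        · exact edges_of hf (Or.inr (Or.inr (Or.inr (by simp [dir]))))
      · obtain rfl : y = b := by omega
        rcases (show x = a ∨ x + 1 = a by omega) with rfl | rfl
        · exact edges_of hf (Or.inr (Or.inl (by simp [dir])))
        · exact edges_of hf (Or.inr (Or.inr (Or.inl (by simp [dir]))))
      · obtain rfl : a = x + 1 := by omega
        rcases (show y = b ∨ y + 1 = b by omega) with rfl | rfl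
        · exact edges_of hf (Or.inl (by simp [dir, Sym2.eq_swap]))
        · exact edges_of hf (Or.inr (Or.inr (Or.inr (by simp [dir, Sym2.eq_swap]))))
      · obtain rfl : b = y + 1 := by omega
        rcases (show x = a ∨ x + 1 = a by omega) with rfl | rfl
        · exact edges_of hf (Or.inr (Or.inl (by simp [dir, Sym2.eq_swap])))
        · exact edges_of hf (Or.inr (Or.inr (Or.inl (by simp [dir, Sym2.eq_swap]))))
    · intro h
      obtain ⟨f, hf, h⟩ := mem_edges.1 h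
      have hd : ∀ a b : ℤ × ℤ, (∃ r, b = a + dir r) → dist (pt a) (pt b) = 1 := fun a b h =>
        dist_one.2 h
      have key : ∀ a b : ℤ × ℤ, s(v, w) = s(a, b) → (∃ r, b = a + dir r) →
          (f.1 ≤ a.1 ∧ a.1 ≤ f.1 + 1 ∧ f.2 ≤ a.2 ∧ a.2 ≤ f.2 + 1) →
          (f.1 ≤ b.1 ∧ b.1 ≤ f.1 + 1 ∧ f.2 ≤ b.2 ∧ b.2 ≤ f.2 + 1) →
          dist (pt v) (pt w) = 1 ∧ segment ℝ ((δ : ℂ) * pt v) (δ * pt w) ⊆ region δ S := by
        intro a b hab h1 h2 h3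
        rcases Sym2.eq_iff.1 hab with ⟨rfl, rfl⟩ | ⟨rfl, rfl⟩
        · exact ⟨hd _ _ h1, seg_sub hδ hf h2 h3⟩
        · exact ⟨by rw [dist_comm]; exact hd _ _ h1, seg_sub hδ hf h3 h2⟩
      rcases h with h | h | h | h
      · exact key _ _ h ⟨0, by simp [dir]⟩ (by simp) (by simp)
      · exact key _ _ h ⟨1, by simp [dir]⟩ (by simp) (by simp)
      · exact key _ _ h ⟨1, by simp [dir, add_assoc]⟩ (by simp) (by simp)
      · exact key _ _ h ⟨0, by simp [dir, add_assoc]⟩ (by simp) (by simp)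

theorem E_eq (hS : Encloses D.p S) : D.E = edges S := by
  ext e
  induction e using Sym2.ind with
  | _ v w => rw [D.mem_E, mem_edges_iff D.δ_pos (isPolygon D) hS]

end Vale.Agent.P167.H72.Lit
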