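import Vale.Agent.P167.H72.Lit.AllS
import Vale.Agent.P167.H872.Asm.Final

/-!
# P167, literal form: the limit laws, and the statement for every trace
-/

set_option autoImplicit false

open MeasureTheory ProbabilityTheory Set Filter Topology
open scoped NNReal ENNReal

universe u

namespace Vale.Agent.P167.H72.Lit

open Vale.Agent.P167.QE (IsDrvK drvK_unique Cls S_seqOn wq wq_pos kappa_pos' expn_q muq obsQ)
open Vale.Agent.P167.SLE (IsLim CapG bq uni_of_uniformizer exists_transfer isTrace_unique seq_main)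
open Vale.Agent.P153.R2.C1 (reparam)

theorem reparam_refl (c : C(unitInterval, ℂ)) : reparam c (OrderIso.refl unitInterval) = c := by
  ext t
  rfl

theorem hasLim_of_seqOn {K : Cls} {κ : ℝ} {wt : QE.Wt} (hseq : S_seqOn K κ wt) (hne : K.Ne) :
    HasLim κ := by
  intro _ _ _ _
  obtain ⟨Φ, δ, N, k, p, S, hA, hK⟩ := hne
  obtain ⟨ψ, hψ⟩ := Vale.Agent.P153.R2.R1.i_unif Φ
  obtain ⟨n₀, ψn, bn, ε, X, xs, cs, w, T0, T1, lam, R, e, hlam, hS, he, hclose⟩ :=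
    hseq Φ ψ hψ δ N k p S hA hK
  obtain ⟨ν, hν, -⟩ := seq_main hS X (fun _ => 0) tendsto_const_nhds
    (fun n A => ⟨OrderIso.refl _, by rw [reparam_refl, dist_self]⟩)
  exact ⟨Φ, ψ, lam, ν, hψ, hlam, hν⟩

theorem kappa_one : Final.kappa 1 = 6 := by
  have h1 : Real.arccos (-√1 / 2) = 2 * Real.pi / 3 := by
    rw [show -√1 / 2 = Real.cos (2 * Real.pi / 3) by
      rw [show 2 * Real.pi / 3 = Real.pi - Real.pi / 3 by ring, Real.cos_pi_sub,
        Real.cos_pi_div_three, Real.sqrt_one]; ring]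
    exact Real.arccos_cos (by positivity) (by linarith [Real.pi_pos])
  rw [Final.kappa, h1]
  have := Real.pi_ne_zero
  field_simp
  norm_num

theorem hasLim_one : HasLim (Final.kappa 1) := by
  rw [kappa_one]
  intro _ _ _ _
  have hseq : SLE.S_seq := H411.s_seq Vale.Agent.P153.R2.R1.i_uinj H411.i_rado6 Final.expn_obsF
    (Final.i_close6 Final.i_geo Final.i_CORE LOC.i_loc1') H161.cross6 Final.i_fin6 Fjord.i_nf6
  obtain ⟨Φ, δ, N, k, p, S, hA⟩ := H446.Exap.s_exap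
  obtain ⟨ψ, hψ⟩ := Vale.Agent.P153.R2.R1.i_unif Φ
  obtain ⟨n₀, ψn, bn, ε, X, xs, cs, w, T0, T1, lam, R, e, hlam, hS, he, hclose⟩ :=
    hseq Φ ψ hψ δ N k p S hA
  obtain ⟨ν, hν, -⟩ := seq_main hS X (fun _ => 0) tendsto_const_nhds
    (fun n A => ⟨OrderIso.refl _, by rw [reparam_refl, dist_self]⟩)
  exact ⟨Φ, ψ, lam, ν, hψ, hlam, hν⟩

theorem blockG : QT.BlockG :=
  H872.Asm.blockG_of (fun _ h0 h1 => H174.BD.b_bad_b3 h0 h1 H174.BD.p_b3) H872.Asm.b_shp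

theorem hasLim_q {q : ℝ} (h1 : 1 < q) (h4 : q < 4) : HasLim (Final.kappa q) := by
  have h0 : 0 < q := by linarith
  obtain ⟨c₀, c₁, c₂, hE⟩ := expn_q h0 h4
  have hs : S_seqOn (QE.Stair 3) (Final.kappa q) (wq q) :=
    QT.s_seqMOn (kappa_pos' h0.le) (wq_pos h0) Vale.Agent.P153.R2.R1.i_uinj H411.i_rado6 hE
      (QT.closeM_q blockG H872.Asm.blockIB h1 h4) (QC.crossW h1.le h4.le) (QC.finW h1.le h4.le)
      (QN.i_nfQ h1.le h4.le)
  have h := hasLim_of_seqOn hs QG.Apx.ne_stair3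
  exact h

theorem hasLim {q : ℝ} (h1 : 1 ≤ q) (h4 : q < 4) : HasLim (Final.kappa q) := by
  rcases h1.eq_or_lt with rfl | h1
  · exact hasLim_one
  · exact hasLim_q h1 h4

theorem isSLE_iff {κ : ℝ} {Ω : Type*} [MeasurableSpace Ω] {P : Measure Ω} {γ : Ω → ℝ → ℂ} :
    IsSLE κ P γ ↔ Final.IsSLE κ P γ := by
  constructor
  · rintro ⟨B, hB, h⟩
    exact ⟨B, hB, h.mono fun ω hω => ⟨hω.cont, hω.start, hω.im_nonneg, hω.domain_eq⟩⟩
  · rintro ⟨B, hB, h⟩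
    exact ⟨B, hB, h.mono fun ω hω => ⟨hω.cont, hω.start, hω.im_nonneg, hω.domain_eq⟩⟩

/-- **Q1 for all `1 ≤ q < 4`, literal form.** -/
theorem question : ∀ q : ℝ, 1 ≤ q → q < 4 → Question.{u} q := by
  intro q h1 h4
  have hQ := H872.Asm.final q h1 h4
  refine ⟨?_, ?_⟩
  · obtain ⟨Ω, mΩ, P, hP, γ, hγ, -⟩ := hQ
    exact ⟨Ω, mΩ, P, hP, γ, isSLE_iff.2 hγ⟩
  · intro Ω _ P _ γ hγ Φ
    exact of_body (body_of (kappa_pos' (by linarith)) (hasLim h1 h4) hQ (isSLE_iff.1 hγ)) Φ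

end Vale.Agent.P167.H72.Lit
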