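import Vale.Agent.P167.H72.Lit.Apx

/-!
# P167, literal form: the statement from `Final.Question` for every trace
-/

set_option autoImplicit false

namespace Vale.Agent.P167.H72.Lit

open MeasureTheory ProbabilityTheory Filter Topology Set
open Vale.Agent.P167.Final (Encloses circ toC dom Approx edges)

/-- The body of `Final.Question` for a fixed trace. -/
def FBody (q : ℝ) {Ω : Type*} [MeasurableSpace Ω] (P : Measure Ω) (γ : Ω → ℝ → ℂ) : Prop :=
  ∀ Φ : (ℝ × ℝ) ≃ₜ (ℝ × ℝ), (∃ ψ, Final.IsUniformizer Φ ψ) ∧ ∀ ψ, Final.IsUniformizer Φ ψ →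
      ∃ G : Ω → C(unitInterval, ℂ),
        (∀ᵐ ω ∂P, G ω 0 = toC (Φ (circ 0)) ∧ G ω 1 = toC (Φ (circ Real.pi)) ∧
          ∀ t : unitInterval, (t : ℝ) < 1 → G ω t = ψ (γ ω (t / (1 - t)))) ∧
        (∀ F, Final.BoundedContinuous F → AEMeasurable (fun ω => F (G ω)) P) ∧
        ∀ (δ : ℕ → ℝ) (N k : ℕ → ℕ) (p : ∀ n, ZMod (N n) → ℤ × ℤ)
          (S : ℕ → Finset (ℤ × ℤ)), Approx Φ δ N k p S →
          (∀ n, ∀ A ⊆ edges (S n), ∃ η, Final.IsInterface (p n) (k n) (δ n) A η) ∧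
          ∀ η : ∀ n, Finset (Sym2 (ℤ × ℤ)) → C(unitInterval, ℂ),
            (∀ n, ∀ A ⊆ edges (S n), Final.IsInterface (p n) (k n) (δ n) A (η n A)) →
            ∀ F, Final.BoundedContinuous F →
              Tendsto (fun n => Final.mean q (p n) (k n) (S n) fun A => F (η n A)) atTop
                (𝓝 (∫ ω, F (G ω) ∂P))

/-- The convergence of the discrete domains, for all large `n`. -/
theorem approx_seq {Φ : ℂ ≃ₜ ℂ} {D : ℕ → Discrete} (hD : Approximates D Φ)
    (hk : ∀ n, 0 < (D n).k ∧ (D n).k < (D n).N) {S : ℕ → Finset (ℤ × ℤ)}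
    (hS : ∀ n, Encloses (D n).p (S n)) :
    Approx (conj Φ) (fun n => (D n).δ) (fun n => (D n).N) (fun n => (D n).k) (fun n => (D n).p)
      S := by
  refine ⟨fun n => ⟨(D n).δ_pos, (hk n).1, (hk n).2, isPolygon _, hS n⟩, hD.1, ?_⟩
  intro ε hε
  have h1 := Metric.tendstoUniformlyOn_iff.1 hD.2 (ε / 2) (by positivity)
  have h2 : ∀ᶠ n in atTop, (D n).δ < ε / 2 := hD.1.eventually_lt_const (by positivity)
  filter_upwards [h1, h2] with n hn1 hn2
  exact approx_one (D n) (hk n).1 (hk n).2 hn2.le fun t ht => by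
    rw [dist_comm]; exact hn1 t ht

theorem dist_marks (Φ : ℂ ≃ₜ ℂ) : 0 < dist (Φ 1) (Φ (-1)) := by
  rw [dist_pos]
  intro h
  have := Φ.injective h
  norm_num [Complex.ext_iff] at this

/-- Both arcs have vertices for all large `n`. -/
theorem ev_k {Φ : ℂ ≃ₜ ℂ} {D : ℕ → Discrete} (hD : Approximates D Φ) :
    ∀ᶠ n in atTop, 0 < (D n).k ∧ (D n).k < (D n).N := by
  have hd := dist_marks Φ
  have h1 := Metric.tendstoUniformlyOn_iff.1 hD.2 (dist (Φ 1) (Φ (-1)) / 4) (by positivity)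
  have h2 : ∀ᶠ n in atTop, (D n).δ < dist (Φ 1) (Φ (-1)) / 4 :=
    hD.1.eventually_lt_const (by positivity)
  filter_upwards [h1, h2] with n hn1 hn2
  exact k_pos (D n) (Φ := Φ) (ε := dist (Φ 1) (Φ (-1)) / 4)
    (fun t ht => by rw [dist_comm]; exact hn1 t ht) (by linarith)

theorem approximates_shift {Φ : ℂ ≃ₜ ℂ} {D : ℕ → Discrete} (hD : Approximates D Φ) (m : ℕ) :
    Approximates (fun n => D (n + m)) Φ := by
  refine ⟨hD.1.comp (tendsto_add_atTop_nat m), ?_⟩
  rw [Metric.tendstoUniformlyOn_iff] at *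
  intro ε hε
  exact (tendsto_add_atTop_nat m).eventually (Metric.tendstoUniformlyOn_iff.1 hD.2 ε hε)

section

variable {q : ℝ} {Ω : Type*} [MeasurableSpace Ω] {P : Measure Ω} {γ : Ω → ℝ → ℂ}

/-- **The literal form from the body of `Final.Question`.** -/
theorem of_body (hB : FBody q P γ) (Φ : ℂ ≃ₜ ℂ) : (∃ ψ, IsUniformizer Φ ψ) ∧
    ∀ ψ, IsUniformizer Φ ψ → (∃ G, IsSLEIn P γ Φ ψ G) ∧ ∀ G, IsSLEIn P γ Φ ψ G →
      (∀ F, BoundedContinuous F → AEMeasurable (fun ω => F (G ω)) P) ∧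
      (∀ D : ℕ → Discrete, Approximates D Φ → ConvergesInLaw q D P G) ∧
      ConvergesUniformly q Φ P G := by
  obtain ⟨⟨ψ0, hψ0⟩, hB⟩ := hB (conj Φ)
  refine ⟨⟨ψ0, (isUniformizer_iff Φ ψ0).2 hψ0⟩, fun ψ hψ => ?_⟩
  obtain ⟨G', hG', hm, hconv⟩ := hB ψ ((isUniformizer_iff Φ ψ).1 hψ)
  rw [toC_zero, toC_pi] at hG'
  refine ⟨⟨G', hG'⟩, fun G hG => ?_⟩
  -- all versions of the curve coincide
  have hae : ∀ᵐ ω ∂P, G' ω = G ω := by
    filter_upwards [hG, hG'] with ω h1 h2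
    ext t
    rcases lt_or_eq_of_le t.2.2 with ht | ht
    · rw [h1.2.2 t ht, h2.2.2 t ht]
    · have ht' : t = 1 := Subtype.ext ht
      rw [ht', h1.2.1, h2.2.1]
  have hint : ∀ F : C(unitInterval, ℂ) → ℝ, ∫ ω, F (G' ω) ∂P = ∫ ω, F (G ω) ∂P := fun F =>
    integral_congr_ae (hae.mono fun ω hω => by simp only [hω])
  have hseq : ∀ D : ℕ → Discrete, Approximates D Φ → ConvergesInLaw q D P G := by
    intro D hD
    obtain ⟨m, hm'⟩ := eventually_atTop.1 (ev_k hD)
    have hk : ∀ n, 0 < (D (n + m)).k ∧ (D (n + m)).k < (D (n + m)).N := fun n => hm' _ (by omega)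
    choose S hS using fun n => exists_S (D n)
    have hA := approx_seq (approximates_shift hD m) hk (S := fun n => S (n + m))
      (fun n => hS (n + m))
    obtain ⟨h1, h2⟩ := hconv _ _ _ _ _ hA
    have hex : ∀ n, ∀ A ⊆ (D (n + m)).E, ∃! η, IsInterface (D (n + m)) A η := by
      intro n A hAE
      rw [E_eq (hS _)] at hAE
      obtain ⟨η, hη⟩ := h1 n A hAE
      exact ⟨η, (isInterface_iff (hk n).1 A η).2 hη, fun η' hη' =>
        interface_unique hη' ((isInterface_iff (hk n).1 A η).2 hη)⟩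
    refine ⟨eventually_atTop.2 ⟨m, fun n hn => ?_⟩, ?_⟩
    · obtain ⟨i, rfl⟩ := Nat.exists_eq_add_of_le' hn
      exact hex i
    intro η hη F hF
    obtain ⟨m', hm''⟩ := eventually_atTop.1 hη
    -- complete the interfaces
    choose! η₀ hη₀ using fun n A (hA : A ⊆ (D (n + m)).E) => (hex n A hA).exists
    classical
    have h3 := h2 (fun n A => if m' ≤ n + m then η (n + m) A else η₀ n A) (by
      intro n A hAE
      rw [← E_eq (hS _)] at hAE
      split_ifs with h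
      · exact (isInterface_iff (hk n).1 A _).1 (hm'' _ h A hAE)
      · exact (isInterface_iff (hk n).1 A _).1 (hη₀ n A hAE)) F hF
    rw [hint] at h3
    rw [← tendsto_add_atTop_iff_nat m]
    refine h3.congr' ?_
    filter_upwards [eventually_ge_atTop m'] with n hn
    rw [mean_eq (hS _) (hk n).1]
    simp only [show m' ≤ n + m by omega, if_true]
  refine ⟨fun F hF => (hm F hF).congr (hae.mono fun ω hω => by simp only [hω]), hseq, ?_⟩
  -- the form without sequences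
  intro F hF ε hε
  by_contra hcon
  push Not at hcon
  choose D hD1 hD2 hD3 using fun n : ℕ => hcon (1 / ((n : ℝ) + 1)) (by positivity)
  have hlim := tendsto_one_div_add_atTop_nhds_zero_nat (𝕜 := ℝ)
  have hD : Approximates D Φ := by
    refine ⟨squeeze_zero (fun n => (D n).δ_pos.le) (fun n => (hD1 n).le) hlim, ?_⟩
    rw [Metric.tendstoUniformlyOn_iff]
    intro e he
    filter_upwards [hlim.eventually_lt_const he] with n hn t ht
    rw [dist_comm, Complex.dist_eq]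
    exact (hD2 n t ht).trans hn
  obtain ⟨h1, h2⟩ := hseq D hD
  classical
  have hex : ∀ n, ∃ η : Finset (Sym2 (ℤ × ℤ)) → C(unitInterval, ℂ),
      (∀ A ⊆ (D n).E, ∃! η, IsInterface (D n) A η) →
      (∀ A ⊆ (D n).E, IsInterface (D n) A (η A)) ∧
        ε ≤ |mean q (D n) (fun A => F (η A)) - ∫ ω, F (G ω) ∂P| := by
    intro n
    by_cases h : ∀ A ⊆ (D n).E, ∃! η, IsInterface (D n) A η
    · obtain ⟨η, h3, h4⟩ := hD3 n h
      exact ⟨η, fun _ => ⟨h3, h4⟩⟩
    · exact ⟨0, fun h' => absurd h' h⟩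
  choose η hη using hex
  have h3 := h2 η (h1.mono fun n hn => (hη n hn).1) F hF
  have h4 := (Metric.tendsto_nhds.1 h3) ε hε
  obtain ⟨n, hn1, hn2⟩ := (h1.and h4).exists
  have h5 := (hη n hn1).2
  rw [Real.dist_eq] at hn2
  linarith

end

end Vale.Agent.P167.H72.Lit
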