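import Vale.Agent.P167.H72.Lit.Graph

/-!
# P167, literal form: the wired arc, the clusters and the interface
-/

set_option autoImplicit false

namespace Vale.Agent.P167.H72.Lit

open Filter Topology Set
open Vale.Agent.P167.Final (Encloses face verts edges)

variable (D : Discrete)

theorem Discrete.β_eq (t : ℝ) (_ : t ∈ Icc (0 : ℝ) 1) : D.β t = line D.δ D.p (D.u t) := rfl

instance neZero : NeZero D.N := ⟨by have := D.two_lt; omega⟩

/-! ### The polygonal line -/

section Line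

variable {D} {δ : ℝ} {n : ℕ} {p : ZMod n → ℤ × ℤ}

theorem line_int (δ : ℝ) (p : ZMod n → ℤ × ℤ) (i : ℤ) : line δ p i = δ * pt (p i) := by
  unfold line
  rw [Int.fract_intCast, Int.floor_intCast]
  push_cast
  ring

theorem line_of_mem {i : ℤ} {x : ℝ} (h1 : (i : ℝ) ≤ x) (h2 : x ≤ i + 1) :
    line δ p x = δ * ((1 - (x - i : ℝ)) * pt (p i) + (x - i : ℝ) * pt (p (i + 1))) := by
  rcases h2.lt_or_eq with h3 | h3
  · have hf : ⌊x⌋ = i := Int.floor_eq_iff.2 ⟨h1, h3⟩
    unfold line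
    rw [hf, Int.fract, hf]
  · have h4 : x = ((i + 1 : ℤ) : ℝ) := by push_cast; exact h3
    rw [h4, line_int]
    push_cast
    ring

/-- The points of the line which are lattice points are the vertices. -/
theorem eq_of_line (hδ : 0 < δ) (hp : ∀ i, ∃ r, p (i + 1) = p i + dir r) {x : ℝ} {v : ℤ × ℤ}
    (h : line δ p x = δ * pt v) : ∃ i : ℤ, x = i ∧ v = p i := by
  have hδ' : (δ : ℂ) ≠ 0 := by exact_mod_cast hδ.ne'
  unfold line at h
  have h := mul_left_cancel₀ hδ' h
  obtain ⟨r, hr⟩ := hp ⌊x⌋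
  rw [hr] at h
  have e1 := congrArg Complex.re h
  have e2 := congrArg Complex.im h
  have h0 := Int.fract_nonneg x
  have h1 := Int.fract_lt_one x
  have hx : x = ⌊x⌋ + Int.fract x := (Int.floor_add_fract x).symm
  generalize hθ : Int.fract x = θ at *
  have hzero : θ = 0 := by
    have key : ∀ a b : ℤ, (a : ℝ) + θ = b → θ = 0 := by
      intro a b hab
      have h3 : (θ : ℝ) = ((b - a : ℤ) : ℝ) := by push_cast; linarith
      rw [h3] at h0 h1 ⊢
      have h4 : (0 : ℤ) ≤ b - a := by exact_mod_cast h0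
      have h5 : b - a < 1 := by exact_mod_cast h1
      have : b - a = 0 := by omega
      rw [this]
      simp
    have key' : ∀ a b : ℤ, (a : ℝ) - θ = b → θ = 0 := fun a b hab =>
      key b a (by linarith)
    fin_cases r <;> simp [dir, pt] at e1 e2
    · exact key (p ⌊x⌋).1 v.1 (by linarith)
    · exact key (p ⌊x⌋).2 v.2 (by linarith)
    · exact key' (p ⌊x⌋).1 v.1 (by linarith)
    · exact key' (p ⌊x⌋).2 v.2 (by linarith)
  refine ⟨⌊x⌋, by rw [hzero] at hx; simpa using hx, ?_⟩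
  rw [hzero] at e1 e2
  simp [pt] at e1 e2
  ext
  · exact_mod_cast e1.symm
  · exact_mod_cast e2.symm

/-- The distance from a vertex along the line. -/
theorem dist_line (hδ : 0 < δ) (hp : ∀ i, dist (pt (p i)) (pt (p (i + 1))) = 1) {i : ℤ} {x : ℝ}
    (h1 : (i : ℝ) - 1 ≤ x) (h2 : x ≤ i + 1) : dist (δ * pt (p i)) (line δ p x) ≤ δ := by
  have hn : ∀ (a : ℝ) (z w : ℂ), 0 ≤ a → a ≤ 1 → dist z w = 1 → ‖(δ : ℂ) * (a * (z - w))‖ ≤ δ := by
    intro a z w ha ha' hzw
    rw [norm_mul, norm_mul, ← Complex.dist_eq, hzw, Complex.norm_real, Complex.norm_real,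
      Real.norm_of_nonneg hδ.le, Real.norm_of_nonneg ha]
    nlinarith
  rcases le_total (i : ℝ) x with h3 | h3
  · rw [line_of_mem h3 h2, Complex.dist_eq]
    refine le_trans (le_of_eq ?_) (hn (x - i) _ _ (by linarith) (by linarith) (hp i))
    congr 1
    push_cast
    ring
  · have e : (((i - 1 : ℤ) : ZMod n) + 1) = i := by push_cast; ring
    rw [line_of_mem (i := i - 1) (by push_cast; linarith) (by push_cast; linarith),
      Complex.dist_eq, e]
    have h4 := hp ((i - 1 : ℤ) : ZMod n)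
    rw [e, dist_comm] at h4
    refine le_trans (le_of_eq ?_) (hn (i - x) _ _ (by linarith) (by linarith) h4)
    congr 1
    push_cast
    ring

end Line

/-! ### The wired vertices -/

theorem mem_wired {v : ℤ × ℤ} : v ∈ wired D ↔ ∃ i : ℕ, D.k ≤ i ∧ i < D.N ∧ v = D.p i := by
  have hh : (1 / 2 : ℝ) ∈ Icc (0 : ℝ) 1 := by constructor <;> norm_num
  have h11 : (1 : ℝ) ∈ Icc (0 : ℝ) 1 := by constructor <;> norm_num
  constructor
  · rintro ⟨t, ht, h⟩
    have ht' : t ∈ Icc (0 : ℝ) 1 := ⟨by linarith [ht.1], ht.2⟩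
    rw [D.β_eq t ht'] at h
    obtain ⟨i, hi, hv⟩ := eq_of_line D.δ_pos (isPolygon D).2.2 h
    have h1 : D.u (1 / 2) ≤ i := by
      rw [← hi]; exact D.u_mono.monotoneOn hh ht' ht.1
    have h2 : (i : ℝ) ≤ D.u 1 := by
      rw [← hi]; exact D.u_mono.monotoneOn ht' h11 ht.2
    have h3 : (D.k : ℝ) - 1 < i := lt_of_lt_of_le D.u_half.1 h1
    have h4 : (i : ℝ) < D.N := by
      have := D.u_one
      have := D.u_zero.2
      linarith
    have h5 : (D.k : ℤ) - 1 < i := by exact_mod_cast h3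
    have h6 : i < (D.N : ℤ) := by exact_mod_cast h4
    obtain ⟨j, rfl⟩ : ∃ j : ℕ, i = j := ⟨i.toNat, by omega⟩
    refine ⟨j, by omega, by omega, ?_⟩
    rw [hv, Int.cast_natCast]
  · rintro ⟨i, h1, h2, rfl⟩
    have h3 : D.u (1 / 2) ≤ i := D.u_half.2.trans (by exact_mod_cast h1)
    have h4 : (i : ℝ) ≤ D.u 1 := by
      have := D.u_one
      have := D.u_zero.1
      have : (i : ℝ) + 1 ≤ D.N := by exact_mod_cast h2
      linarith
    obtain ⟨t, ht, hti⟩ := intermediate_value_Icc (by norm_num : (1 / 2 : ℝ) ≤ 1)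
      (D.u_cont.mono (Icc_subset_Icc_left (by norm_num))) ⟨h3, h4⟩
    refine ⟨t, ht, ?_⟩
    rw [D.β_eq t ⟨by linarith [ht.1], ht.2⟩, hti]
    have := line_int D.δ D.p i
    simpa using this

theorem openEdges_eq (hk : 0 < D.k) (A : Finset (Sym2 (ℤ × ℤ))) :
    openEdges D A = Final.wiredOpen D.p D.k A := by
  ext e
  refine or_congr Iff.rfl ?_
  constructor
  · rintro ⟨i, h1, h2, rfl⟩
    obtain ⟨j, hj1, hj2, hj⟩ := (mem_wired D).1 h1
    obtain ⟨j', hj1', hj2', hj'⟩ := (mem_wired D).1 h2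
    have e1 : i = j := D.inj hj
    have e2 : i + 1 = j' := D.inj hj'
    rw [e1] at e2
    have e3 : ((j + 1 : ℕ) : ZMod D.N) = (j' : ℕ) := by push_cast; exact e2
    rw [ZMod.natCast_eq_natCast_iff'] at e3
    rw [Nat.mod_eq_of_lt hj2'] at e3
    rcases (show j + 1 < D.N ∨ j + 1 = D.N by omega) with h | h
    · exact ⟨j, hj1, h, by rw [e1]⟩
    · rw [h, Nat.mod_self] at e3
      omega
  · rintro ⟨i, h1, h2, rfl⟩
    refine ⟨i, (mem_wired D).2 ⟨i, h1, by omega, rfl⟩, (mem_wired D).2 ⟨i + 1, by omega, h2, ?_⟩,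
      rfl⟩
    push_cast
    rfl

/-! ### The clusters -/

variable {D} {S : Finset (ℤ × ℤ)}

theorem p_mem_verts (hS : Encloses D.p S) (i : ZMod D.N) : D.p i ∈ verts S := by
  obtain ⟨r, hr⟩ := (isPolygon D).2.2 i
  have h := ((hS (D.p i) r).1 ⟨i, rfl, hr⟩).1
  refine mem_verts.2 ⟨_, h, ?_⟩
  generalize D.p i = v
  obtain ⟨a, b⟩ := v
  fin_cases r <;> simp [face]

theorem clusters_eq (hS : Encloses D.p S) (hk : 0 < D.k) (A : Finset (Sym2 (ℤ × ℤ))) :
    clusters D A = Final.clusters D.p D.k S A := by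
  unfold clusters Final.clusters
  have hV := V_eq hS
  set G := (SimpleGraph.fromEdgeSet (Final.wiredOpen D.p D.k A)).induce
    (verts S : Set (ℤ × ℤ)) with hG
  have hmem : ∀ v : D.V, v.1 ∈ (verts S : Set (ℤ × ℤ)) := fun v => by
    rw [Finset.mem_coe, ← hV]; exact v.2
  have hmem' : ∀ v : (verts S : Set (ℤ × ℤ)), v.1 ∈ D.V := fun v => by
    rw [hV]; exact v.2
  have hadj : ∀ v w : (verts S : Set (ℤ × ℤ)), s(v.1, w.1) ∈ Final.wiredOpen D.p D.k A →
      G.Reachable v w := by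
    intro v w h
    by_cases hvw : v = w
    · rw [hvw]
    · refine SimpleGraph.Adj.reachable ?_
      rw [hG, SimpleGraph.comap_adj, SimpleGraph.fromEdgeSet_adj]
      exact ⟨h, fun h => hvw (Subtype.ext h)⟩
  have hchain : ∀ i : ℕ, D.k ≤ i → i < D.N →
      G.Reachable ⟨D.p D.k, p_mem_verts hS _⟩ ⟨D.p i, p_mem_verts hS _⟩ := by
    intro i hi
    induction i, hi using Nat.le_induction with
    | base => exact fun _ => SimpleGraph.Reachable.refl _
    | succ i hi ih =>
      intro h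
      refine (ih (by omega)).trans (hadj _ _ (Or.inr ⟨i, hi, h, ?_⟩))
      push_cast
      rfl
  have h1 : ∀ v w : D.V, (s(v.1, w.1) ∈ A ∨ (v.1 ∈ wired D ∧ w.1 ∈ wired D)) →
      G.connectedComponentMk ⟨v.1, hmem v⟩ = G.connectedComponentMk ⟨w.1, hmem w⟩ := by
    rintro v w (h | ⟨hv, hw⟩)
    · exact SimpleGraph.ConnectedComponent.sound (hadj _ _ (Or.inl h))
    · obtain ⟨i, hi1, hi2, hi⟩ := (mem_wired D).1 hv
      obtain ⟨j, hj1, hj2, hj⟩ := (mem_wired D).1 hw
      have a1 := hchain i hi1 hi2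
      have a2 := hchain j hj1 hj2
      refine SimpleGraph.ConnectedComponent.sound ?_
      have e1 : (⟨v.1, hmem v⟩ : (verts S : Set (ℤ × ℤ))) = ⟨D.p i, p_mem_verts hS _⟩ :=
        Subtype.ext hi
      have e2 : (⟨w.1, hmem w⟩ : (verts S : Set (ℤ × ℤ))) = ⟨D.p j, p_mem_verts hS _⟩ :=
        Subtype.ext hj
      rw [e1, e2]
      exact a1.symm.trans a2
  have h2 : ∀ v w : (verts S : Set (ℤ × ℤ)), G.Reachable v w →
      (Quot.mk (fun v w : D.V => s(v.1, w.1) ∈ A ∨ (v.1 ∈ wired D ∧ w.1 ∈ wired D))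
        ⟨v.1, hmem' v⟩) = Quot.mk _ ⟨w.1, hmem' w⟩ := by
    rintro v w ⟨W⟩
    induction W with
    | nil => rfl
    | cons h _ ih =>
      refine Eq.trans ?_ ih
      rw [hG, SimpleGraph.comap_adj, SimpleGraph.fromEdgeSet_adj] at h
      refine Quot.sound ?_
      rcases h.1 with h | ⟨i, hi1, hi2, hi⟩
      · exact Or.inl h
      · right
        have b1 : D.p i ∈ wired D := (mem_wired D).2 ⟨i, hi1, by omega, rfl⟩
        have b2 : D.p (i + 1) ∈ wired D := (mem_wired D).2 ⟨i + 1, by omega, hi2, by push_cast; rfl⟩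
        rcases Sym2.eq_iff.1 hi with ⟨c1, c2⟩ | ⟨c1, c2⟩
        · exact ⟨Eq.subst (motive := fun x => x ∈ wired D) c1.symm b1,
            Eq.subst (motive := fun x => x ∈ wired D) c2.symm b2⟩
        · exact ⟨Eq.subst (motive := fun x => x ∈ wired D) c1.symm b2,
            Eq.subst (motive := fun x => x ∈ wired D) c2.symm b1⟩
  refine Nat.card_eq_of_bijective
    (Quot.lift (fun v : D.V => G.connectedComponentMk ⟨v.1, hmem v⟩) h1) ⟨?_, ?_⟩
  · rintro ⟨v⟩ ⟨w⟩ h
    have h3 : G.Reachable ⟨v.1, hmem v⟩ ⟨w.1, hmem w⟩ := SimpleGraph.ConnectedComponent.exact h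
    exact h2 _ _ h3
  · intro c
    induction c using SimpleGraph.ConnectedComponent.ind with
    | _ v => exact ⟨Quot.mk _ ⟨v.1, hmem' v⟩, rfl⟩

theorem weight_eq (hS : Encloses D.p S) (hk : 0 < D.k) (q : ℝ) (A : Finset (Sym2 (ℤ × ℤ))) :
    weight q D A = Final.weight q D.p D.k S A := by
  unfold weight Final.weight
  rw [clusters_eq hS hk, E_eq hS]
  rfl

theorem mean_eq (hS : Encloses D.p S) (hk : 0 < D.k) (q : ℝ)
    (F : Finset (Sym2 (ℤ × ℤ)) → ℝ) : mean q D F = Final.mean q D.p D.k S F := by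
  unfold mean Final.mean
  rw [E_eq hS]
  simp only [weight_eq hS hk]

theorem isInterface_iff (hk : 0 < D.k) (A : Finset (Sym2 (ℤ × ℤ))) (γ : C(unitInterval, ℂ)) :
    IsInterface D A γ ↔ Final.IsInterface D.p D.k D.δ A γ := by
  unfold IsInterface Final.IsInterface
  rw [openEdges_eq D hk]
  rfl

theorem dir_inj {r s : Fin 4} (h : dir r = dir s) : r = s := by
  fin_cases r <;> fin_cases s <;> simp_all [dir]

/-- The interface is unique. -/
theorem interface_unique {A : Finset (Sym2 (ℤ × ℤ))} {γ γ' : C(unitInterval, ℂ)}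
    (h : IsInterface D A γ) (h' : IsInterface D A γ') : γ = γ' := by
  obtain ⟨m, c, hm, h1, h2, h3, h4, h5, h6, h7⟩ := h
  obtain ⟨m', c', hm', h1', h2', h3', h4', h5', h6', h7'⟩ := h'
  have hc0 : c 0 = c' 0 := by
    refine Prod.ext (h1.trans h1'.symm) ?_
    have := dir_inj (add_left_cancel (h2.trans h2'.symm))
    exact add_right_cancel this
  have hc : c = c' := by
    funext j
    induction j with
    | zero => exact hc0
    | succ j ih => rw [h3, h3', ih]
  subst hc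
  have e1 := h4 (m' + 1) (by omega) ⟨h5', h6'⟩
  have e2 := h4' (m + 1) (by omega) ⟨h5, h6⟩
  obtain rfl : m = m' := by omega
  ext t
  rw [h7, h7']

end Vale.Agent.P167.H72.Lit
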